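import Vale.Agent.P159.TM.H764.Lamb
import Vale.Agent.P159.TM.H459.Blocks

/-!
# P159, row TILT (5): row LAMB for balls of blocks

`lamb_gen`: H764's `lamb` for every set `Λ` with at most `m²` points which loses at most `m` points
under each unit shift. `lv_blk1`, `lv_blk2`, `card_blkball`: a ball of radius `R` of blocks of side
`l` is such a set, `m = (2R+1) l`.
-/

open Finset

set_option linter.unusedSectionVars false

namespace Vale.Agent.P159.TM.H634

open Vale.Agent.P159.TM.H764 (lv lv_le_card lv_zsmul lv_add tl tl_le sum_min leave_eq sum_inv_sq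
  card_line natAbs_add_one)
open Vale.Agent.P159.TM.H459 (bk bk1 sd sn)

noncomputable section

variable {N : ℕ} [NeZero N]

/-- the crossing count -/
theorem lv_gen {m : ℕ} {Λ : Finset (ZMod N × ZMod N)} (h1 : lv Λ (1, 0) ≤ m)
    (h2 : lv Λ (0, 1) ≤ m) (hc : Λ.card ≤ m ^ 2) (w : ZMod N × ZMod N) :
    lv Λ w ≤ m * (min w.1.valMinAbs.natAbs m + min w.2.valMinAbs.natAbs m) := by
  have h1 : lv Λ (w.1, 0) ≤ m * min w.1.valMinAbs.natAbs m := by
    rw [← Nat.mul_min_mul_left]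
    refine le_min ?_ ?_
    · have := lv_zsmul Λ (1, 0) w.1.valMinAbs
      have e : w.1.valMinAbs • ((1 : ZMod N), (0 : ZMod N)) = (w.1, 0) := by
        ext <;> simp
      rw [e] at this
      refine this.trans ?_
      rw [mul_comm]
      exact Nat.mul_le_mul_right _ h1
    · refine (lv_le_card _ _).trans (hc.trans ?_)
      rw [sq]
  have h2 : lv Λ (0, w.2) ≤ m * min w.2.valMinAbs.natAbs m := by
    rw [← Nat.mul_min_mul_left]
    refine le_min ?_ ?_
    · have := lv_zsmul Λ (0, 1) w.2.valMinAbs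
      have e : w.2.valMinAbs • ((0 : ZMod N), (1 : ZMod N)) = (0, w.2) := by
        ext <;> simp
      rw [e] at this
      refine this.trans ?_
      rw [mul_comm]
      exact Nat.mul_le_mul_right _ h2
    · refine (lv_le_card _ _).trans (hc.trans ?_)
      rw [sq]
  have h3 := lv_add Λ (w.1, 0) (0, w.2)
  have e : ((w.1, 0) : ZMod N × ZMod N) + (0, w.2) = w := by ext <;> simp
  rw [e] at h3
  rw [mul_add]
  omega

/-- **row LAMB, general sets** -/
theorem lamb_gen {ξ m : ℕ} (hξ : 1 ≤ ξ) {Λ : Finset (ZMod N × ZMod N)} (hl1 : lv Λ (1, 0) ≤ m)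
    (hl2 : lv Λ (0, 1) ≤ m) (hc : Λ.card ≤ m ^ 2) (G : ZMod N × ZMod N → ℝ)
    (hG : ∀ w, 0 ≤ G w) (hs : ∀ w, G (w.2, w.1) = G w) {y A : ℝ} (hy0 : 0 ≤ y) (hA0 : 0 ≤ A)
    (hy : (1 - y) * (ξ : ℝ) ^ 2 ≤ ∑ w, G w) (htot : ∑ w, G w ≤ (ξ : ℝ) ^ 2)
    (hA : ∀ s : ℕ, ξ ≤ s → tl G s ≤ A * (ξ : ℝ) ^ 2 * (y + (ξ : ℝ) ^ 2 / (s : ℝ) ^ 2)) :
    (Λ.card : ℝ) * (ξ : ℝ) ^ 2 - ∑ x ∈ Λ, ∑ z ∈ Λ, G (z - x) ≤
      (1 + 2 * A) * (y * (ξ : ℝ) ^ 2 * m ^ 2) + 2 * (1 + A) * (m * (ξ : ℝ) ^ 3) := by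
  have hx : (0 : ℝ) < ξ := by exact_mod_cast hξ
  -- sum of the tails
  have h1 : ∑ s ∈ range m, tl G (s + 1) ≤ (1 + A) * (ξ : ℝ) ^ 3 + A * (ξ : ℝ) ^ 2 * y * m := by
    have h2 : ∀ s ∈ range m, tl G (s + 1) ≤ (if s < ξ then (ξ : ℝ) ^ 2 else 0) +
        (A * (ξ : ℝ) ^ 2 * y + A * (ξ : ℝ) ^ 4 *
          (if ξ ≤ s then (1 : ℝ) / ((s : ℝ) + 1) ^ 2 else (0 : ℝ))) := by
      intro s _
      by_cases h : s < ξ
      · have h' : ¬ ξ ≤ s := by omega
        rw [if_pos h, if_neg h']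
        have := (tl_le G hG (s + 1)).trans htot
        have : 0 ≤ A * (ξ : ℝ) ^ 2 * y := by positivity
        linarith
      · have h' : ξ ≤ s := by omega
        rw [if_neg h, if_pos h']
        have := hA (s + 1) (by omega)
        push_cast at this
        refine this.trans (le_of_eq ?_)
        field_simp
        ring
    refine (Finset.sum_le_sum h2).trans ?_
    rw [Finset.sum_add_distrib, Finset.sum_add_distrib, ← Finset.mul_sum (a := A * (ξ : ℝ) ^ 4)]
    have h3 : ∑ s ∈ range m, (if s < ξ then (ξ : ℝ) ^ 2 else 0) ≤ (ξ : ℝ) ^ 3 := by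
      rw [← Finset.sum_filter, Finset.sum_const, nsmul_eq_mul]
      have : ((range m).filter fun s => s < ξ).card ≤ ξ := by
        have h4 : ((range m).filter fun s => s < ξ) ⊆ range ξ := by
          intro s hs
          rw [Finset.mem_filter] at hs
          exact Finset.mem_range.2 hs.2
        simpa using Finset.card_le_card h4
      have h5 : (((range m).filter fun s => s < ξ).card : ℝ) ≤ ξ := by exact_mod_cast this
      calc _ ≤ (ξ : ℝ) * (ξ : ℝ) ^ 2 := by gcongr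
        _ = (ξ : ℝ) ^ 3 := by ring
    have h6 := sum_inv_sq ξ hξ m
    have h7 : A * (ξ : ℝ) ^ 4 * ∑ s ∈ range m, (if ξ ≤ s then (1 : ℝ) / ((s : ℝ) + 1) ^ 2 else (0 : ℝ))
        ≤ A * (ξ : ℝ) ^ 3 := by
      calc _ ≤ A * (ξ : ℝ) ^ 4 * (1 / ξ) := by gcongr
        _ = A * (ξ : ℝ) ^ 3 := by field_simp
    rw [Finset.sum_const, card_range, nsmul_eq_mul]
    linarith
  -- the leaving mass
  have h8 : ∑ w, G w * (lv Λ w : ℝ) ≤ 2 * (m : ℝ) * ∑ s ∈ range m, tl G (s + 1) := by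
    have h9 : ∑ w, G w * (lv Λ w : ℝ) ≤
        ∑ w : ZMod N × ZMod N, G w * ((m : ℝ) * ((min w.1.valMinAbs.natAbs m : ℕ) +
          (min w.2.valMinAbs.natAbs m : ℕ))) := by
      refine Finset.sum_le_sum fun w _ => mul_le_mul_of_nonneg_left ?_ (hG w)
      have := lv_gen hl1 hl2 hc w
      exact_mod_cast this
    refine h9.trans (le_of_eq ?_)
    have h10 : ∑ w : ZMod N × ZMod N, G w * ((min w.2.valMinAbs.natAbs m : ℕ) : ℝ) =
        ∑ w : ZMod N × ZMod N, G w * ((min w.1.valMinAbs.natAbs m : ℕ) : ℝ) := by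
      rw [← Equiv.sum_comp (Equiv.prodComm _ _)]
      refine Finset.sum_congr rfl fun w _ => ?_
      simp only [Equiv.prodComm_apply, Prod.swap, hs w]
    rw [← sum_min]
    have h11 : ∑ w : ZMod N × ZMod N, G w * ((m : ℝ) * ((min w.1.valMinAbs.natAbs m : ℕ) +
          (min w.2.valMinAbs.natAbs m : ℕ))) =
        (m : ℝ) * (∑ w : ZMod N × ZMod N, G w * ((min w.1.valMinAbs.natAbs m : ℕ) : ℝ) +
          ∑ w : ZMod N × ZMod N, G w * ((min w.2.valMinAbs.natAbs m : ℕ) : ℝ)) := by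
      rw [← Finset.sum_add_distrib, Finset.mul_sum]
      exact Finset.sum_congr rfl fun w _ => by ring
    rw [h11, h10]
    ring
  have h12 := leave_eq G Λ
  have h13 : (Λ.card : ℝ) ≤ (m : ℝ) ^ 2 := by exact_mod_cast hc
  have h14 : (Λ.card : ℝ) * (ξ : ℝ) ^ 2 ≤
      (Λ.card : ℝ) * ∑ w, G w + y * (ξ : ℝ) ^ 2 * (m : ℝ) ^ 2 := by
    have h15 : (ξ : ℝ) ^ 2 ≤ ∑ w, G w + y * (ξ : ℝ) ^ 2 := by linarith
    calc (Λ.card : ℝ) * (ξ : ℝ) ^ 2
        ≤ (Λ.card : ℝ) * (∑ w, G w + y * (ξ : ℝ) ^ 2) := by gcongr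
      _ = (Λ.card : ℝ) * ∑ w, G w + (Λ.card : ℝ) * (y * (ξ : ℝ) ^ 2) := by ring
      _ ≤ (Λ.card : ℝ) * ∑ w, G w + (m : ℝ) ^ 2 * (y * (ξ : ℝ) ^ 2) := by gcongr
      _ = _ := by ring
  have h16 : 2 * (m : ℝ) * ∑ s ∈ range m, tl G (s + 1) ≤
      2 * (m : ℝ) * ((1 + A) * (ξ : ℝ) ^ 3 + A * (ξ : ℝ) ^ 2 * y * m) := by gcongr
  nlinarith [h8, h12, h14, h16]

/-! ### balls of blocks -/

variable {n l : ℕ} [NeZero n]

/-- the coordinates whose block is at distance at most `R` from `a` -/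
def ivl (N : ℕ) [NeZero N] (n l : ℕ) (a : ZMod n) (R : ℕ) : Finset (ZMod N) :=
  univ.filter fun x => (bk1 n l x - a).valMinAbs.natAbs ≤ R

/-- the points whose block is at distance at most `R` from `a` -/
def bb (N : ℕ) [NeZero N] (n l : ℕ) (a : ZMod n × ZMod n) (R : ℕ) :
    Finset (ZMod N × ZMod N) :=
  univ.filter fun v => sd a (bk n l v) ≤ R

theorem bb_eq (a : ZMod n × ZMod n) (R : ℕ) :
    bb N n l a R = ivl N n l a.1 R ×ˢ ivl N n l a.2 R := by
  ext v
  unfold bb ivl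
  rw [Finset.mem_product, Finset.mem_filter, Finset.mem_filter, Finset.mem_filter]
  simp only [Finset.mem_univ, true_and]
  unfold sd sn bk
  simp only [Prod.fst_sub, Prod.snd_sub]
  omega

theorem div_lt (hN : N = n * l) (x : ZMod N) : x.val / l < n := by
  have h := ZMod.val_lt x
  rw [Nat.div_lt_iff_lt_mul]
  · omega
  · rcases Nat.eq_zero_or_pos l with h0 | h0
    · subst h0
      have := NeZero.ne N
      omega
    · exact h0

theorem bk1_val (hN : N = n * l) (x : ZMod N) : (bk1 n l x).val = x.val / l := by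
  unfold bk1
  rw [ZMod.val_natCast, Nat.mod_eq_of_lt (div_lt hN x)]

theorem card_ivl (hl : 0 < l) (hN : N = n * l) (a : ZMod n) (R : ℕ) :
    (ivl N n l a R).card ≤ (2 * R + 1) * l := by
  have h1 : (ivl N n l a R).card ≤
      ((univ.filter fun x : ZMod n => (x - a).valMinAbs.natAbs ≤ R) ×ˢ range l).card := by
    refine Finset.card_le_card_of_injOn (fun x => (bk1 n l x, x.val % l)) ?_ ?_
    · intro x hx
      rw [Finset.mem_coe] at hx
      unfold ivl at hx
      rw [Finset.mem_filter] at hx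
      rw [Finset.mem_coe, Finset.mem_product, Finset.mem_filter, Finset.mem_range]
      exact ⟨⟨Finset.mem_univ _, hx.2⟩, Nat.mod_lt _ hl⟩
    · intro x _ z _ h
      simp only [Prod.mk.injEq] at h
      have h2 := congrArg ZMod.val h.1
      rw [bk1_val hN, bk1_val hN] at h2
      apply ZMod.val_injective N
      rw [← Nat.div_add_mod x.val l, ← Nat.div_add_mod z.val l, h2, h.2]
  rw [Finset.card_product, Finset.card_range] at h1
  exact h1.trans (Nat.mul_le_mul_right _ (card_line R a))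

/-- the block of the next coordinate -/
theorem bk1_add_one (hl : 0 < l) (hN : N = n * l) (x : ZMod N) :
    bk1 n l (x + 1) = bk1 n l x ∨
      (bk1 n l (x + 1) = bk1 n l x + 1 ∧ x.val % l = l - 1) := by
  have hx := ZMod.val_lt x
  by_cases h : x.val + 1 = N
  · right
    have h0 : x + 1 = 0 := by
      have h1 : ((x.val + 1 : ℕ) : ZMod N) = x + 1 := by
        push_cast
        rw [ZMod.natCast_zmod_val]
      rw [← h1, h, ZMod.natCast_self]
    have h2 : x.val = l * (n - 1) + (l - 1) := by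
      have hn : 0 < n := NeZero.pos n
      obtain ⟨k, rfl⟩ : ∃ k, n = k + 1 := ⟨n - 1, by omega⟩
      have e1 : (k + 1) * l = l * k + l := by ring
      have e2 : l * (k + 1 - 1) = l * k := by rw [Nat.add_sub_cancel]
      omega
    have h3 : x.val / l = n - 1 := by
      rw [h2, Nat.mul_add_div hl, Nat.div_eq_of_lt (by omega), Nat.add_zero]
    have h4 : x.val % l = l - 1 := by
      rw [h2, Nat.mul_add_mod, Nat.mod_eq_of_lt (by omega)]
    refine ⟨?_, h4⟩
    rw [h0]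
    unfold bk1
    rw [h3, ZMod.val_zero, Nat.zero_div]
    have hn : 0 < n := NeZero.pos n
    have h5 : ((n - 1 : ℕ) : ZMod n) + 1 = ((n - 1 + 1 : ℕ) : ZMod n) := by push_cast; ring
    rw [h5, Nat.sub_add_cancel hn, ZMod.natCast_self, Nat.cast_zero]
  · have h1 : (x + 1).val = x.val + 1 := by
      have h2 : ((x.val + 1 : ℕ) : ZMod N) = x + 1 := by
        push_cast
        rw [ZMod.natCast_zmod_val]
      rw [← h2, ZMod.val_natCast, Nat.mod_eq_of_lt (by omega)]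
    have h3 := Nat.div_add_mod x.val l
    have h4 := Nat.mod_lt x.val hl
    by_cases h5 : x.val % l = l - 1
    · right
      refine ⟨?_, h5⟩
      unfold bk1
      rw [h1]
      have h6 : (x.val + 1) / l = x.val / l + 1 := by
        have h7 : x.val + 1 = l * (x.val / l + 1) := by rw [mul_add, mul_one]; omega
        rw [h7, Nat.mul_div_cancel_left _ hl]
      rw [h6]
      push_cast
      rfl
    · left
      unfold bk1
      rw [h1]
      have h6 : (x.val + 1) / l = x.val / l := by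
        have h7 : x.val + 1 = l * (x.val / l) + (x.val % l + 1) := by omega
        have h8 : x.val % l + 1 < l := by omega
        rw [h7, Nat.mul_add_div hl, Nat.div_eq_of_lt h8, Nat.add_zero]
      rw [h6]

/-- at most one coordinate leaves the interval -/
theorem exit_val (hl : 0 < l) (hN : N = n * l) {a : ZMod n} {R : ℕ} {x : ZMod N}
    (hx : x ∈ ivl N n l a R) (hx1 : x + 1 ∉ ivl N n l a R) :
    x.val = l * ((R : ZMod n) + a).val + (l - 1) := by
  unfold ivl at hx hx1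
  rw [Finset.mem_filter] at hx hx1
  have h2 : ¬ (bk1 n l (x + 1) - a).valMinAbs.natAbs ≤ R := fun h => hx1 ⟨Finset.mem_univ _, h⟩
  rcases bk1_add_one hl hN x with h | ⟨h, h3⟩
  · rw [h] at h2
    exact absurd hx.2 h2
  · have e : bk1 n l (x + 1) - a = (bk1 n l x - a) + 1 := by rw [h]; ring
    rw [e] at h2
    have h4 := natAbs_add_one hx.2 h2
    have h5 : bk1 n l x = (R : ZMod n) + a := by rw [← h4]; ring
    have h6 := congrArg ZMod.val h5
    rw [bk1_val hN] at h6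
    rw [← h6, ← h3]
    exact (Nat.div_add_mod x.val l).symm

theorem card_bb (hl : 0 < l) (hN : N = n * l) (a : ZMod n × ZMod n) (R : ℕ) :
    (bb N n l a R).card ≤ ((2 * R + 1) * l) ^ 2 := by
  rw [bb_eq, Finset.card_product, sq]
  exact Nat.mul_le_mul (card_ivl hl hN _ R) (card_ivl hl hN _ R)

theorem lv_bb1 (hl : 0 < l) (hN : N = n * l) (a : ZMod n × ZMod n) (R : ℕ) :
    lv (bb N n l a R) (1, 0) ≤ (2 * R + 1) * l := by
  unfold lv
  refine le_trans ?_ (card_ivl hl hN a.2 R)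
  rw [bb_eq]
  refine Finset.card_le_card_of_injOn (fun x => x.2) ?_ ?_
  · intro x hx
    rw [Finset.mem_coe, Finset.mem_filter, Finset.mem_product] at hx
    exact hx.1.2
  · have key : ∀ x ∈ (ivl N n l a.1 R ×ˢ ivl N n l a.2 R).filter
        (fun x => x + (1, 0) ∉ ivl N n l a.1 R ×ˢ ivl N n l a.2 R),
        x.1.val = l * ((R : ZMod n) + a.1).val + (l - 1) := by
      intro x hx
      rw [Finset.mem_filter, Finset.mem_product, Finset.mem_product] at hx
      refine exit_val hl hN hx.1.1 fun h => hx.2 ⟨?_, ?_⟩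
      · simpa using h
      · simpa using hx.1.2
    intro x hx z hz h
    refine Prod.ext ?_ h
    apply ZMod.val_injective N
    rw [key x hx, key z hz]

theorem lv_bb2 (hl : 0 < l) (hN : N = n * l) (a : ZMod n × ZMod n) (R : ℕ) :
    lv (bb N n l a R) (0, 1) ≤ (2 * R + 1) * l := by
  unfold lv
  refine le_trans ?_ (card_ivl hl hN a.1 R)
  rw [bb_eq]
  refine Finset.card_le_card_of_injOn (fun x => x.1) ?_ ?_
  · intro x hx
    rw [Finset.mem_coe, Finset.mem_filter, Finset.mem_product] at hx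
    exact hx.1.1
  · have key : ∀ x ∈ (ivl N n l a.1 R ×ˢ ivl N n l a.2 R).filter
        (fun x => x + (0, 1) ∉ ivl N n l a.1 R ×ˢ ivl N n l a.2 R),
        x.2.val = l * ((R : ZMod n) + a.2).val + (l - 1) := by
      intro x hx
      rw [Finset.mem_filter, Finset.mem_product, Finset.mem_product] at hx
      refine exit_val hl hN hx.1.2 fun h => hx.2 ⟨?_, ?_⟩
      · simpa using hx.1.1
      · simpa using h
    intro x hx z hz h
    refine Prod.ext h ?_
    apply ZMod.val_injective N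
    rw [key x hx, key z hz]

/-- a block has at most `l²` points -/
theorem card_block (hl : 0 < l) (hN : N = n * l) (a : ZMod n × ZMod n) :
    ((univ : Finset (ZMod N × ZMod N)).filter fun v => bk n l v = a).card ≤ l ^ 2 := by
  have h1 : ((univ : Finset (ZMod N × ZMod N)).filter fun v => bk n l v = a).card ≤
      (range l ×ˢ range l).card := by
    refine Finset.card_le_card_of_injOn (fun x => (x.1.val % l, x.2.val % l)) ?_ ?_
    · intro x _
      rw [Finset.mem_coe, Finset.mem_product, Finset.mem_range, Finset.mem_range]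
      exact ⟨Nat.mod_lt _ hl, Nat.mod_lt _ hl⟩
    · intro x hx z hz h
      rw [Finset.mem_coe, Finset.mem_filter] at hx hz
      have h2 := hx.2.trans hz.2.symm
      unfold bk at h2
      simp only [Prod.mk.injEq] at h h2
      refine Prod.ext ?_ ?_
      · have h3 := congrArg ZMod.val h2.1
        rw [bk1_val hN, bk1_val hN] at h3
        apply ZMod.val_injective N
        rw [← Nat.div_add_mod x.1.val l, ← Nat.div_add_mod z.1.val l, h3, h.1]
      · have h3 := congrArg ZMod.val h2.2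
        rw [bk1_val hN, bk1_val hN] at h3
        apply ZMod.val_injective N
        rw [← Nat.div_add_mod x.2.val l, ← Nat.div_add_mod z.2.val l, h3, h.2]
  rw [Finset.card_product, Finset.card_range, ← sq] at h1
  exact h1

/-- **row LAMB for a ball of blocks of side `l ≤ ξ`** -/
theorem lamb_blk {ξ : ℕ} (hl : 0 < l) (hN : N = n * l) (hlξ : l ≤ ξ) (a : ZMod n × ZMod n)
    (R : ℕ) (G : ZMod N × ZMod N → ℝ)
    (hG : ∀ w, 0 ≤ G w) (hs : ∀ w, G (w.2, w.1) = G w) {y A : ℝ} (hy0 : 0 ≤ y) (hA0 : 0 ≤ A)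
    (hy : (1 - y) * (ξ : ℝ) ^ 2 ≤ ∑ w, G w) (htot : ∑ w, G w ≤ (ξ : ℝ) ^ 2)
    (hA : ∀ s : ℕ, ξ ≤ s → tl G s ≤ A * (ξ : ℝ) ^ 2 * (y + (ξ : ℝ) ^ 2 / (s : ℝ) ^ 2)) :
    ((bb N n l a R).card : ℝ) * (ξ : ℝ) ^ 2 -
      ∑ x ∈ bb N n l a R, ∑ z ∈ bb N n l a R, G (z - x) ≤
      4 * (1 + 2 * A) * (ξ : ℝ) ^ 4 * (y * ((R : ℝ) + 1) ^ 2 + ((R : ℝ) + 1)) := by
  have h := lamb_gen (le_trans (Nat.succ_le_of_lt hl) hlξ) (lv_bb1 hl hN a R) (lv_bb2 hl hN a R)
    (card_bb hl hN a R) G hG hs hy0 hA0 hy htot hA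
  refine h.trans ?_
  have hl' : (l : ℝ) ≤ ξ := by exact_mod_cast hlξ
  have hl0 : (0 : ℝ) ≤ l := by positivity
  have hx0 : (0 : ℝ) ≤ ξ := hl0.trans hl'
  have hm : (((2 * R + 1) * l : ℕ) : ℝ) ≤ 2 * ((R : ℝ) + 1) * ξ := by
    push_cast
    have : (2 * (R : ℝ) + 1) ≤ 2 * ((R : ℝ) + 1) := by linarith
    exact mul_le_mul this hl' hl0 (by positivity)
  have hm0 : (0 : ℝ) ≤ (((2 * R + 1) * l : ℕ) : ℝ) := by positivity
  have h1 : (((2 * R + 1) * l : ℕ) : ℝ) ^ 2 ≤ (2 * ((R : ℝ) + 1) * ξ) ^ 2 := by gcongr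
  calc (1 + 2 * A) * (y * (ξ : ℝ) ^ 2 * (((2 * R + 1) * l : ℕ) : ℝ) ^ 2) +
        2 * (1 + A) * ((((2 * R + 1) * l : ℕ) : ℝ) * (ξ : ℝ) ^ 3)
      ≤ (1 + 2 * A) * (y * (ξ : ℝ) ^ 2 * (2 * ((R : ℝ) + 1) * ξ) ^ 2) +
        2 * (1 + A) * ((2 * ((R : ℝ) + 1) * ξ) * (ξ : ℝ) ^ 3) := by gcongr
    _ = 4 * (1 + 2 * A) * (ξ : ℝ) ^ 4 * (y * ((R : ℝ) + 1) ^ 2) +
        4 * (1 + A) * (ξ : ℝ) ^ 4 * ((R : ℝ) + 1) := by ring
    _ ≤ 4 * (1 + 2 * A) * (ξ : ℝ) ^ 4 * (y * ((R : ℝ) + 1) ^ 2) +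
        4 * (1 + 2 * A) * (ξ : ℝ) ^ 4 * ((R : ℝ) + 1) := by
        gcongr
        linarith
    _ = _ := by ring

end

end Vale.Agent.P159.TM.H634
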