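import Vale.Agent.P159.TM.H634.Lpv
import Vale.Agent.P159.TM.H634.Lam
import Vale.Agent.P159.TM.H352.Cl
import Vale.Agent.P159.TM.H738.A2
import Vale.Agent.P159.TM.Spec.Tor

/-!
# P159, row TILT (6): the torus

`gas_eq`: H352's gas on the torus is the gas of `TM/H634/Gas.lean`. `tiltT_one`, `tiltT_two`:
H352's `Gas.Tilt` for `Spec.σ1` and `Spec.σ2` (any real background), from the one scale hypothesis
`H764.QK` of `Spec.GT` and the bound of `Xi` of ONE copy.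
-/

open Finset
open scoped ENNReal NNReal

set_option linter.unusedSectionVars false
set_option linter.unusedDecidableInType false

namespace Vale.Agent.P159.TM.H634

open Vale.Agent.P159.H353 (wI wI_nonneg wI_neg wI_anti wI_zero_pos)
open H60 H352 H131
open Vale.Agent.P159.TM.H708 (SS lf bw iX)
open Vale.Agent.P159.T1.H934 (grd)
open Vale.Agent.P159.TM.H459 (tS tT bk bk_edge sd_edge)

section gaseq

variable {N n : ℕ} [NeZero N] [NeZero n] {S : Type*}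

theorem gas_ext {ι 𝔹 : Type*} [Fintype 𝔹] [DecidableEq 𝔹] {G : Geo 𝔹} {A A' : Gas ι 𝔹 G}
    (h1 : A.p = A'.p) (h2 : A.X = A'.X) (h3 : A.vis = A'.vis) : A = A' := by
  cases A; cases A'
  simp only at h1 h2 h3
  subst h1; subst h2; subst h3
  rfl

theorem isC_iff {V E : Type*} [Fintype V] [DecidableEq V] [Fintype E] [DecidableEq E]
    (s t : E → V) (om : Finset E) (C : Finset V) : C ∈ cluss s t om ↔ IsC s t om C := by
  unfold cluss IsC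
  simp

/-- neighbours lie in blocks at distance at most one -/
theorem adjT {l : ℕ} (hl : 0 < l) (hN : N = n * l) (e : TE N) :
    (torGeo n).d (bk n l (tS e)) (bk n l (tT e)) ≤ 1 :=
  bk_edge hl hN (sd_edge e)

theorem ZZ_eq (σ : Sys (TV N) (TE N) S) (hs : Summable fun x => σ.tot x) :
    H352.ZZ σ = ENNReal.ofReal (∑' x, σ.tot x) := by
  unfold H352.ZZ H576.Ex
  rw [ENNReal.ofReal_tsum_of_nonneg (fun x => σ.tot_nonneg x) hs]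
  refine tsum_congr fun x => ?_
  simp only [mul_one]
  rw [← ENNReal.ofReal_sum_of_nonneg fun om _ => σ.wt_nonneg om x, σ.sum_wt]

open Classical in
/-- **H352's gas is the gas of this folder** -/
theorem gas_eq (σ : Sys (TV N) (TE N) S) (hs : σ.s = tS) (ht : σ.t = tT) (ε : ℝ≥0) {l : ℕ}
    (hl : 0 < l) (hN : N = n * l) (hsum : Summable fun x => σ.tot x) (hZ : 0 < ∑' x, σ.tot x)
    (hadj : ∀ e, (torGeo n).d (bk n l (σ.s e)) (bk n l (σ.t e)) ≤ 1) :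
    H352.gas σ hs ht ε hl hN = gas σ (torGeo n) (bk n l) (ε : ℝ) hadj := by
  refine gas_ext ?_ ?_ ?_
  · funext i
    show (H352.ZZ σ)⁻¹ * ENNReal.ofReal (σ.wt i.1 i.2.1) *
      (if i.2.2 ∈ cluss σ.s σ.t i.1 then 1 else 0) =
      if IsC σ.s σ.t i.1 i.2.2 then ENNReal.ofReal (σ.wt i.1 i.2.1 / ∑' x, σ.tot x) else 0
    by_cases h : IsC σ.s σ.t i.1 i.2.2
    · rw [if_pos h, if_pos ((isC_iff _ _ _ _).2 h), mul_one, ZZ_eq σ hsum,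
        ENNReal.ofReal_div_of_pos hZ, ENNReal.div_eq_inv_mul]
    · rw [if_neg h, if_neg (fun h' => h ((isC_iff _ _ _ _).1 h')), mul_zero]
  · funext i β
    show (if i.2.2 ∈ cluss σ.s σ.t i.1 then
      (ε : ℝ≥0∞) * ∑ z ∈ i.2.2.filter (fun z => bk n l z = β), ((σ.d (i.2.1 z)).natAbs : ℝ≥0∞)
        else 0) = ENNReal.ofReal ((ε : ℝ) *
          ∑ z ∈ (cC σ.s σ.t i.1 i.2.2).filter (fun z => bk n l z = β), |σ.D i.2.1 z|)
    by_cases h : IsC σ.s σ.t i.1 i.2.2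
    · rw [if_pos ((isC_iff _ _ _ _).2 h), cC_of h, ENNReal.ofReal_mul (NNReal.coe_nonneg ε),
        ENNReal.ofReal_sum_of_nonneg fun z _ => abs_nonneg _]
      congr 1
      · exact (ENNReal.ofReal_coe_nnreal).symm
      · refine Finset.sum_congr rfl fun z _ => ?_
        unfold Sys.D
        rw [← ENNReal.ofReal_natCast]
        congr 1
        rw [← Int.cast_natCast, Int.natCast_natAbs, Int.cast_abs]
    · rw [if_neg (fun h' => h ((isC_iff _ _ _ _).1 h'))]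
      unfold cC
      rw [if_neg h]
      simp
  · funext i
    show (if i.2.2 ∈ cluss σ.s σ.t i.1 then i.2.2.image (bk n l) else ∅) =
      (cC σ.s σ.t i.1 i.2.2).image (bk n l)
    by_cases h : IsC σ.s σ.t i.1 i.2.2
    · rw [if_pos ((isC_iff _ _ _ _).2 h), cC_of h]
    · rw [if_neg (fun h' => h ((isC_iff _ _ _ _).1 h'))]
      unfold cC
      rw [if_neg h, Finset.image_empty]

end gaseq

section model

variable {N : ℕ} [NeZero N] {b : ℝ}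

theorem s2_eq (hb : 0 ≤ b) (ξ : ℕ) (f : ZMod N × ZMod N → ℝ) :
    Spec.σ2 N b ξ hb f = S2 tS tT (fun _ => hb) (fun _ => 1 / (ξ : ℝ) ^ 2) f := by
  unfold Spec.σ2 S2
  refine two_congr rfl ?_
  funext v n
  unfold Spec.aT H131.sw SpecC.ms
  congr 1
  ring

theorem s1_eq (hb : 0 ≤ b) (ξ : ℕ) :
    Spec.σ1 N b ξ hb = S1 tS tT (fun _ => hb) (fun _ => 1 / (ξ : ℝ) ^ 2) := by
  unfold Spec.σ1 S1
  refine one_congr rfl ?_
  funext v n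
  unfold Spec.aT H131.sw SpecC.ms
  congr 1
  simp only [Pi.zero_apply]
  ring

/-- the variance of `ε ∑ u h` -/
theorem E0_frm (hb : 0 ≤ b) {ξ : ℝ} (hξ : 0 < ξ) (u : ZMod N × ZMod N → ℝ) :
    E0 tS tT (fun _ : TE N => b) (fun _ => 1 / ξ ^ 2) ∅
      (fun h => lf (fun v => 1 / ξ ^ 2 * u v) h ^ 2) = 1 / ξ ^ 4 * H764.frm (H41.G b N ξ) u := by
  rw [← H41.Cf_frm hb hξ, ← H41.Q0_eq H41.even_wT]
  unfold E0 SS H871.Q0 H871.Z
  have e1 : ∀ h : ZMod N × ZMod N → ℤ, bw (grd (tS (N := N)) tT) (fun _ => b)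
      (fun _ => 1 / ξ ^ 2) ∅ h = SpecC.wT b N h * H871.gs (SpecC.ms ξ) 0 h := by
    intro h
    unfold bw H708.ga H871.gs SpecC.ms
    rw [H41.wT_eq_W]
    have : iX (∅ : Set (ZMod N × ZMod N)) h = 1 := by
      unfold iX
      rw [if_pos]
      intro x hx
      exact absurd hx (Set.notMem_empty x)
    rw [this]
    simp
  simp only [e1, mul_one]
  rfl

/-- the value of `κ V` -/
theorem kap_T_le (hb : 0 ≤ b) {ξ : ℝ} (hξ : 0 < ξ) {y a : ℝ}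
    (hQ : H764.QK ξ (H41.G b N ξ) y a) :
    H871.kap (T1.H897.Wk (tS (N := N)) tT fun _ => wI b) (fun _ => 1 / ξ ^ 2) ≤
      (N : ℝ) ^ 2 * y / ξ ^ 2 := by
  have h1 := H41.kap_eq_ddU (W := SpecC.wT b N) H41.even_wT (SpecC.ms ξ)
  rw [H41.ddU_one hb hξ, H41.wT_eq_Wk] at h1
  have h2 : H871.kap (T1.H897.Wk (tS (N := N)) tT fun _ => wI b) (fun _ => 1 / ξ ^ 2) =
      (N : ℝ) ^ 2 / ξ ^ 2 * (1 - H764.Gh (H41.G b N ξ) 0 / ξ ^ 2) := h1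
  rw [h2]
  have h3 := hQ 0
  have h4 : H764.EE (0 : ZMod N × ZMod N) = 0 := by
    unfold H764.EE
    simp [H764.cN_zero]
  rw [h4, mul_zero, sub_zero] at h3
  have hx : (0 : ℝ) < ξ ^ 2 := by positivity
  have h5 : 1 - H764.Gh (H41.G b N ξ) 0 / ξ ^ 2 ≤ y := by
    have : (1 - y) ≤ H764.Gh (H41.G b N ξ) 0 / ξ ^ 2 := by
      rw [le_div_iff₀ hx]; exact h3
    linarith
  calc (N : ℝ) ^ 2 / ξ ^ 2 * (1 - H764.Gh (H41.G b N ξ) 0 / ξ ^ 2)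
      ≤ (N : ℝ) ^ 2 / ξ ^ 2 * y := mul_le_mul_of_nonneg_left h5 (by positivity)
    _ = _ := by ring

/-- the row (LAM) for the torus -/
theorem hLam_T (hb : 0 ≤ b) {ξ : ℕ} {n l : ℕ} [NeZero n] (hl : 0 < l) (hN : N = n * l)
    (hlξ : l ≤ ξ) {y a : ℝ} (hy : 0 ≤ y) (ha : 0 ≤ a)
    (hQ : H764.QK (ξ : ℝ) (H41.G b N ξ) y a) (c : ZMod n × ZMod n) (R : ℕ) :
    1 / (ξ : ℝ) ^ 2 * nL (torGeo n) (bk (N := N) n l) c R -
      E0 tS tT (fun _ : TE N => b) (fun _ => 1 / (ξ : ℝ) ^ 2) ∅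
        (fun h => lf (fun v => 1 / (ξ : ℝ) ^ 2 * lam (torGeo n) (bk (N := N) n l) c R v) h ^ 2) ≤
      (20 + 640 * a) * (y * ((R : ℝ) + 1) ^ 2 + ((R : ℝ) + 1)) := by
  have hξ1 : 1 ≤ ξ := le_trans (Nat.succ_le_of_lt hl) hlξ
  have hξ : (0 : ℝ) < ξ := by exact_mod_cast hξ1
  have hx4 : (0 : ℝ) < (ξ : ℝ) ^ 4 := by positivity
  have hG := H41.G_nonneg (N := N) hb hξ
  have hsum : H764.Gh (H41.G b N ξ) 0 = ∑ w, H41.G b N ξ w := by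
    rw [H764.Gh_zero]
  have htot : ∑ w, H41.G b N ξ w ≤ (ξ : ℝ) ^ 2 := by
    rw [← hsum]; exact H41.Gh_le hb hξ 0
  have hy' : (1 - y) * (ξ : ℝ) ^ 2 ≤ ∑ w, H41.G b N ξ w := by
    have h3 := hQ 0
    have h4 : H764.EE (0 : ZMod N × ZMod N) = 0 := by
      unfold H764.EE
      simp [H764.cN_zero]
    rw [h4, mul_zero, sub_zero, hsum] at h3
    exact h3
  have hA := H738.tail_QK (H41.G b N ξ) hG hy ha hQ htot
  have key := lamb_blk hl hN hlξ c R (H41.G b N ξ) hG (fun w => H41.G_swap b ξ w) hy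
    (by positivity : 0 ≤ 2 + 80 * a) hy' htot (fun s hs => hA s (hξ1.trans hs))
  rw [E0_frm hb hξ]
  have e1 : nL (torGeo n) (bk (N := N) n l) c R = ((bb N n l c R).card : ℝ) := by
    unfold nL lam bb
    rw [Finset.card_filter]
    push_cast
    rfl
  have e2 : H764.frm (H41.G b N ξ) (lam (torGeo n) (bk (N := N) n l) c R) =
      ∑ x ∈ bb N n l c R, ∑ z ∈ bb N n l c R, H41.G b N ξ (z - x) := by
    unfold H764.frm bb
    rw [Finset.sum_filter]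
    refine Finset.sum_congr rfl fun x _ => ?_
    have hd : ∀ x : ZMod N × ZMod N, lam (torGeo n) (bk (N := N) n l) c R x =
        if H459.sd c (bk n l x) ≤ R then 1 else 0 := fun x => rfl
    split_ifs with hx
    · rw [Finset.sum_filter]
      refine Finset.sum_congr rfl fun z _ => ?_
      rw [hd, hd, if_pos hx]
      split_ifs <;> simp
    · refine Finset.sum_eq_zero fun z _ => ?_
      rw [hd, hd, if_neg hx]
      simp
  rw [e1, e2]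
  have h5 : 1 / (ξ : ℝ) ^ 2 * ((bb N n l c R).card : ℝ) - 1 / (ξ : ℝ) ^ 4 *
      (∑ x ∈ bb N n l c R, ∑ z ∈ bb N n l c R, H41.G b N ξ (z - x)) =
      1 / (ξ : ℝ) ^ 4 * (((bb N n l c R).card : ℝ) * (ξ : ℝ) ^ 2 -
      ∑ x ∈ bb N n l c R, ∑ z ∈ bb N n l c R, H41.G b N ξ (z - x)) := by
    field_simp
  rw [h5]
  calc 1 / (ξ : ℝ) ^ 4 * (((bb N n l c R).card : ℝ) * (ξ : ℝ) ^ 2 -
      ∑ x ∈ bb N n l c R, ∑ z ∈ bb N n l c R, H41.G b N ξ (z - x))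
      ≤ 1 / (ξ : ℝ) ^ 4 * (4 * (1 + 2 * (2 + 80 * a)) * (ξ : ℝ) ^ 4 *
        (y * ((R : ℝ) + 1) ^ 2 + ((R : ℝ) + 1))) :=
        mul_le_mul_of_nonneg_left key (by positivity)
    _ = _ := by
      field_simp
      ring

theorem QU_max {ξ y a : ℝ} {G : ZMod N × ZMod N → ℝ} (h : H764.QU ξ G y a) :
    H764.QU ξ G y (max a 0) := by
  intro u
  have h1 : 0 ≤ H764.grd u := by
    unfold H764.grd H764.Q
    positivity
  have h2 : a * ξ ^ 4 * H764.grd u ≤ max a 0 * ξ ^ 4 * H764.grd u := by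
    have : (0 : ℝ) ≤ ξ ^ 4 := by positivity
    exact mul_le_mul_of_nonneg_right (mul_le_mul_of_nonneg_right (le_max_left _ _) this) h1
  have h3 := h u
  linarith

theorem tiltT_one_aux (hb : 0 ≤ b) {ξ : ℕ} {n l : ℕ} [NeZero n] (hl : 0 < l) (hN : N = n * l)
    (hlξ : l ≤ ξ) {ε : ℝ≥0} (hε : (ε : ℝ) = 1 / (ξ : ℝ) ^ 2) {y a : ℝ} (hy : 0 ≤ y)
    (ha : 0 ≤ a) (hQ : H764.QK (ξ : ℝ) (H41.G b N ξ) y a) {c : ZMod n × ZMod n} {R : ℕ} {M : ℝ}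
    (hM : 0 ≤ M) (σ : Sys (TV N) (TE N) ℤ)
    (hσ : σ = S1 tS tT (fun _ => hb) (fun _ => 1 / (ξ : ℝ) ^ 2)) (hs : σ.s = tS) (ht : σ.t = tT)
    (hXi : ∀ β ∈ (torGeo n).ball c R,
      (H352.gas σ hs ht ε hl hN).Xi c R β ≤ ENNReal.ofReal M)
    {K : ℝ} (hK1 : 4 * Real.exp 2 ≤ K) (hK2 : 80 ≤ K) (hK3 : 20 + 640 * a ≤ K) :
    (H352.gas σ hs ht ε hl hN).Tilt K y c R M := by
  subst hσ
  have hξ1 : 1 ≤ ξ := le_trans (Nat.succ_le_of_lt hl) hlξ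
  have hξ : (0 : ℝ) < ξ := by exact_mod_cast hξ1
  have hε0 : (0 : ℝ) < 1 / (ξ : ℝ) ^ 2 := by positivity
  have hm : ∀ v : ZMod N × ZMod N, 0 < (fun _ : ZMod N × ZMod N => 1 / (ξ : ℝ) ^ 2) v :=
    fun _ => hε0
  have hsum : Summable fun x => (S1 (tS (N := N)) tT (fun _ => hb)
      (fun _ => 1 / (ξ : ℝ) ^ 2)).tot x := by
    have h : (S1 (tS (N := N)) tT (fun _ => hb) (fun _ => 1 / (ξ : ℝ) ^ 2)).ExpS :=
      one_ExpS (fun e n => wI_nonneg hb n) (fun e n => wI_neg _ _)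
        (fun e => T1.H897.logC_wI hb) (wt_b tS tT fun _ => hb) hm
    have h0 := h fun _ => 0
    simp only [Sys.pr, zero_mul, Finset.sum_const_zero, Real.exp_zero, mul_one] at h0
    exact h0
  have hZ : 0 < ∑' x, (S1 (tS (N := N)) tT (fun _ => hb) (fun _ => 1 / (ξ : ℝ) ^ 2)).tot x := by
    rw [S1_sum_tot]
    exact (wt_b tS tT fun _ => hb).Z_pos hm 0
  have hadj : ∀ e : TE N, (torGeo n).d (bk n l (tS e)) (bk n l (tT e)) ≤ 1 := adjT hl hN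
  have e1 := gas_eq (S1 (tS (N := N)) tT (fun _ => hb) (fun _ => 1 / (ξ : ℝ) ^ 2)) hs ht ε hl hN
    hsum hZ hadj
  rw [e1] at hXi ⊢
  rw [hε] at hXi ⊢
  have hK0 : 0 ≤ y * ((R : ℝ) + 1) ^ 2 + ((R : ℝ) + 1) := by positivity
  refine tilt_one (fun _ => hb) hε0 (lpv (fun _ => hb) hm) hadj ?_ hM hXi
    ((hLam_T hb hl hN hlξ hy ha hQ c R).trans (mul_le_mul_of_nonneg_right hK3 hK0)) hy hK1 hK2
  have h1 := card_block (N := N) hl hN c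
  have h2 : (((univ : Finset (ZMod N × ZMod N)).filter fun v => bk n l v = c).card : ℝ) ≤
      (ξ : ℝ) ^ 2 := by
    have h3 : l ^ 2 ≤ ξ ^ 2 := Nat.pow_le_pow_left hlξ 2
    exact_mod_cast h1.trans h3
  calc 1 / (ξ : ℝ) ^ 2 * _ ≤ 1 / (ξ : ℝ) ^ 2 * (ξ : ℝ) ^ 2 :=
        mul_le_mul_of_nonneg_left h2 hε0.le
    _ = 1 := by field_simp

/-- **TILT on the torus, one copy** -/
theorem tiltT_one (hb : 0 ≤ b) {ξ : ℕ} {n l : ℕ} [NeZero n] (hl : 0 < l) (hN : N = n * l)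
    (hlξ : l ≤ ξ) {ε : ℝ≥0} (hε : (ε : ℝ) = 1 / (ξ : ℝ) ^ 2) {y a : ℝ} (hy : 0 ≤ y)
    (hQ : H764.QU (ξ : ℝ) (Spec.GT N b ξ) y a) {c : ZMod n × ZMod n} {R : ℕ} {M : ℝ}
    (hM : 0 ≤ M)
    (hXi : ∀ β ∈ (torGeo n).ball c R,
      (H352.gas (Spec.σ1 N b ξ hb) rfl rfl ε hl hN).Xi c R β ≤ ENNReal.ofReal M)
    {K : ℝ} (hK1 : 80 ≤ K) (hK2 : 20 + 640 * max a 0 ≤ K) :
    (H352.gas (Spec.σ1 N b ξ hb) rfl rfl ε hl hN).Tilt K y c R M := by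
  refine tiltT_one_aux hb hl hN hlξ hε hy (le_max_right a 0) (QU_max hQ).qk hM _ (s1_eq hb ξ)
    rfl rfl hXi ?_ hK1 hK2
  have h1 : Real.exp 1 < 2.7182818286 := Real.exp_one_lt_d9
  have h2 : Real.exp 2 = Real.exp 1 * Real.exp 1 := by rw [← Real.exp_add]; norm_num
  have h3 := Real.exp_pos 1
  rw [h2]
  nlinarith

theorem tiltT_two_aux (hb : 0 ≤ b) {ξ : ℕ} {n l : ℕ} [NeZero n] (hl : 0 < l) (hN : N = n * l)
    (hlξ : l ≤ ξ) {ε : ℝ≥0} (hε : (ε : ℝ) = 1 / (ξ : ℝ) ^ 2) {y a : ℝ} (hy : 0 ≤ y)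
    (ha : 0 ≤ a) (hQ : H764.QK (ξ : ℝ) (H41.G b N ξ) y a) {c : ZMod n × ZMod n} {R : ℕ} {M : ℝ}
    (hM : 0 ≤ M) (f : ZMod N × ZMod N → ℝ) (σ : Sys (TV N) (TE N) (ℤ × ℤ))
    (hσ : σ = S2 tS tT (fun _ => hb) (fun _ => 1 / (ξ : ℝ) ^ 2) f) (hs : σ.s = tS)
    (ht : σ.t = tT) (σ' : Sys (TV N) (TE N) ℤ)
    (hσ' : σ' = S1 tS tT (fun _ => hb) (fun _ => 1 / (ξ : ℝ) ^ 2)) (hs' : σ'.s = tS)
    (ht' : σ'.t = tT)
    (hXi : ∀ β ∈ (torGeo n).ball c R,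
      (H352.gas σ' hs' ht' ε hl hN).Xi c R β ≤ ENNReal.ofReal M)
    {K : ℝ} (hK1 : 4 * Real.exp (3 + (N : ℝ) ^ 2 * y / (ξ : ℝ) ^ 2) ≤ K) (hK2 : 160 ≤ K)
    (hK3 : 20 + 640 * a ≤ K) :
    (H352.gas σ hs ht ε hl hN).Tilt K y c R M := by
  subst hσ
  subst hσ'
  have hξ1 : 1 ≤ ξ := le_trans (Nat.succ_le_of_lt hl) hlξ
  have hξ : (0 : ℝ) < ξ := by exact_mod_cast hξ1
  have hε0 : (0 : ℝ) < 1 / (ξ : ℝ) ^ 2 := by positivity
  have hm : ∀ v : ZMod N × ZMod N, 0 < (fun _ : ZMod N × ZMod N => 1 / (ξ : ℝ) ^ 2) v :=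
    fun _ => hε0
  have hsum' : Summable fun x => (S1 (tS (N := N)) tT (fun _ => hb)
      (fun _ => 1 / (ξ : ℝ) ^ 2)).tot x := by
    have h : (S1 (tS (N := N)) tT (fun _ => hb) (fun _ => 1 / (ξ : ℝ) ^ 2)).ExpS :=
      one_ExpS (fun e n => wI_nonneg hb n) (fun e n => wI_neg _ _)
        (fun e => T1.H897.logC_wI hb) (wt_b tS tT fun _ => hb) hm
    have h0 := h fun _ => 0
    simp only [Sys.pr, zero_mul, Finset.sum_const_zero, Real.exp_zero, mul_one] at h0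
    exact h0
  have hZ' : 0 < ∑' x, (S1 (tS (N := N)) tT (fun _ => hb) (fun _ => 1 / (ξ : ℝ) ^ 2)).tot x := by
    rw [S1_sum_tot]
    exact (wt_b tS tT fun _ => hb).Z_pos hm 0
  have hsum : Summable fun x => (S2 (tS (N := N)) tT (fun _ => hb)
      (fun _ => 1 / (ξ : ℝ) ^ 2) f).tot x := by
    have h : (S2 (tS (N := N)) tT (fun _ => hb) (fun _ => 1 / (ξ : ℝ) ^ 2) f).ExpS :=
      two_ExpS (fun e n => wI_nonneg hb n)
        (fun e => T1.H897.logC_wI hb) (wt_b tS tT fun _ => hb) hm f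
    have h0 := h fun _ => 0
    simp only [Sys.pr, zero_mul, Finset.sum_const_zero, Real.exp_zero, mul_one] at h0
    exact h0
  have hZ : 0 < ∑' x, (S2 (tS (N := N)) tT (fun _ => hb) (fun _ => 1 / (ξ : ℝ) ^ 2) f).tot x := by
    rw [S2_sum_tot (fun _ => hb) hm f]
    exact pow_pos ((wt_b tS tT fun _ => hb).Z_pos hm f) 2
  have hadj : ∀ e : TE N, (torGeo n).d (bk n l (tS e)) (bk n l (tT e)) ≤ 1 := adjT hl hN
  have e1 := gas_eq (S2 (tS (N := N)) tT (fun _ => hb) (fun _ => 1 / (ξ : ℝ) ^ 2) f) hs ht ε hl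
    hN hsum hZ hadj
  have e2 := gas_eq (S1 (tS (N := N)) tT (fun _ => hb) (fun _ => 1 / (ξ : ℝ) ^ 2)) hs' ht' ε hl hN
    hsum' hZ' hadj
  rw [e2, hε] at hXi
  rw [e1, hε]
  have hK0 : 0 ≤ y * ((R : ℝ) + 1) ^ 2 + ((R : ℝ) + 1) := by positivity
  refine tilt_two (fun _ => hb) hε0 (lpv (fun _ => hb) hm) f hadj ?_ hM hXi
    (kap_T_le hb hξ hQ)
    ((hLam_T hb hl hN hlξ hy ha hQ c R).trans (mul_le_mul_of_nonneg_right hK3 hK0)) hK1 hK2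
  have h1 := card_block (N := N) hl hN c
  have h2 : (((univ : Finset (ZMod N × ZMod N)).filter fun v => bk n l v = c).card : ℝ) ≤
      (ξ : ℝ) ^ 2 := by
    have h3 : l ^ 2 ≤ ξ ^ 2 := Nat.pow_le_pow_left hlξ 2
    exact_mod_cast h1.trans h3
  calc 1 / (ξ : ℝ) ^ 2 * _ ≤ 1 / (ξ : ℝ) ^ 2 * (ξ : ℝ) ^ 2 :=
        mul_le_mul_of_nonneg_left h2 hε0.le
    _ = 1 := by field_simp

/-- **TILT on the torus, two copies, any real background** -/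
theorem tiltT_two (hb : 0 ≤ b) {ξ : ℕ} {n l : ℕ} [NeZero n] (hl : 0 < l) (hN : N = n * l)
    (hlξ : l ≤ ξ) {ε : ℝ≥0} (hε : (ε : ℝ) = 1 / (ξ : ℝ) ^ 2) {y a : ℝ} (hy : 0 ≤ y)
    (hQ : H764.QU (ξ : ℝ) (Spec.GT N b ξ) y a) {c : ZMod n × ZMod n} {R : ℕ} {M : ℝ}
    (hM : 0 ≤ M)
    (hXi : ∀ β ∈ (torGeo n).ball c R,
      (H352.gas (Spec.σ1 N b ξ hb) rfl rfl ε hl hN).Xi c R β ≤ ENNReal.ofReal M)
    (f : ZMod N × ZMod N → ℝ)
    {K : ℝ} (hK1 : 4 * Real.exp (3 + (N : ℝ) ^ 2 * y / (ξ : ℝ) ^ 2) ≤ K) (hK2 : 160 ≤ K)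
    (hK3 : 20 + 640 * max a 0 ≤ K) :
    (H352.gas (Spec.σ2 N b ξ hb f) rfl rfl ε hl hN).Tilt K y c R M :=
  tiltT_two_aux hb hl hN hlξ hε hy (le_max_right a 0) (QU_max hQ).qk hM f _ (s2_eq hb ξ f)
    rfl rfl _ (s1_eq hb ξ) rfl rfl hXi hK1 hK2 hK3

end model

end Vale.Agent.P159.TM.H634
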