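import Vale.Agent.P159.TM.H634.ThmB1
import Vale.Agent.P159.TM.H352.ThmA
import Vale.Agent.P159.TM.H857.CovB

/-! Theorem B1 unconditionally (circuits everywhere in a real background give exponential
clustering of the two-copy law) and Theorem B from `Spec.ThmA6` alone. -/

namespace Vale.Agent.P159.TM.H634

open Vale.Agent.P159.TM

/-- THEOREM B1 -/
theorem thmB1 {b1 : ℝ} (hb1 : 0 < b1) (b2 a : ℝ) {c₀ δ : ℝ} {A : ℕ} (hc₀ : 0 < c₀) (hδ : 0 < δ)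
    (hA : 8 ≤ A) : Spec.ThmB1 b1 b2 a c₀ δ A :=
  thmB1_of hb1 (H352.thmA hb1 b2 a) hc₀ hδ hA

/-- THEOREM B from `ThmA6` alone -/
theorem thmB_of_A6 {b1 b2 a : ℝ} (hb1 : 0 < b1) (hA6 : Spec.ThmA6 b1 b2 a) :
    Spec.ThmB b1 b2 a :=
  H857.thmB hb1 hA6 (fun _ _ _ hc₀ hδ hA => thmB1 hb1 b2 a hc₀ hδ hA)

end Vale.Agent.P159.TM.H634
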