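import Vale.Agent.P159.TM.H634.Tilt
import Vale.Agent.P159.TM.H682.Bind
import Vale.Agent.P159.TM.H131.Rb
import Vale.Agent.P159.TM.H41.Ker

/-!
# P159, row TILT (3): the real systems

The hypothesis (RB) of `tilt_abs` for one copy (background `0`) and two copies (any real
background), from `H131.RB_one`, `H131.RB_two` (rest of a cluster) and `H682.e3_var` (E3).
-/

open Finset
open scoped ENNReal

set_option linter.unusedSectionVars false
set_option linter.unusedDecidableInType false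

namespace Vale.Agent.P159.TM.H634

open Vale.Agent.P159.H353 H60 H352 H131 H682
open Vale.Agent.P159.TM.H708 (SS lf bw iX)
open Vale.Agent.P159.T1.H934 (grd)

section congr

variable {V E : Type*} [Fintype V] [DecidableEq V] [Fintype E] [DecidableEq E]

theorem one_congr {s t : E → V} {w w' : E → ℤ → ℝ} {hw0 : ∀ e n, 0 ≤ w e n}
    {hev : ∀ e n, w e (-n) = w e n} {hw : ∀ e, T1.H897.LogC (w e)} {hw0' : ∀ e n, 0 ≤ w' e n}
    {hev' : ∀ e n, w' e (-n) = w' e n} {hw' : ∀ e, T1.H897.LogC (w' e)} {a a' : V → ℤ → ℝ}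
    {ha : ∀ v n, 0 ≤ a v n} {hae : ∀ v n, a v (-n) = a v n} {ha' : ∀ v n, 0 ≤ a' v n}
    {hae' : ∀ v n, a' v (-n) = a' v n} (h1 : w = w') (h2 : a = a') :
    one s t w hw0 hev hw a ha hae = one s t w' hw0' hev' hw' a' ha' hae' := by
  subst h1; subst h2; rfl

theorem two_congr {s t : E → V} {w w' : E → ℤ → ℝ} {hw0 : ∀ e n, 0 ≤ w e n}
    {hw : ∀ e, T1.H897.LogC (w e)} {hw0' : ∀ e n, 0 ≤ w' e n}
    {hw' : ∀ e, T1.H897.LogC (w' e)} {a a' : V → ℤ → ℝ}
    {ha : ∀ v n, 0 ≤ a v n} {ha' : ∀ v n, 0 ≤ a' v n} (h1 : w = w') (h2 : a = a') :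
    two s t w hw0 hw a ha = two s t w' hw0' hw' a' ha' := by
  subst h1; subst h2; rfl

end congr

section xi

variable {V E 𝔹 : Type} [Fintype V] [DecidableEq V] [Fintype E] [DecidableEq E]
  [Fintype 𝔹] [DecidableEq 𝔹]
variable {s t : E → V} {b : E → ℝ} (hb : ∀ e, 0 ≤ b e) {m : V → ℝ}

/-- the one-copy system of `H682` is the one-copy system of `H131` -/
theorem syM_eq : H682.syM s t b m hb = S1 s t hb m := by
  unfold H682.syM H682.sy S1
  refine one_congr rfl ?_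
  funext v n
  unfold H682.gs sw
  rw [sub_zero]

/-- the points of the block `β` -/
def blkF (bk : V → 𝔹) (β : 𝔹) : Finset V := univ.filter fun v => bk v = β

/-- `A` with the outer ends of its boundary edges -/
def oc (s t : E → V) (A : Finset V) : Finset V := A ∪ (bdE s t A).image (H131.out s t A)

theorem near_oc {G : Geo 𝔹} {bk : V → 𝔹} (hadj : ∀ e, G.d (bk (s e)) (bk (t e)) ≤ 1)
    {A : Finset V} {w : V} (hw : w ∈ oc s t A) : ∃ v ∈ A, G.d (bk v) (bk w) ≤ 1 := by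
  unfold oc at hw
  rw [Finset.mem_union] at hw
  rcases hw with hw | hw
  · exact ⟨w, hw, by rw [G.d_self]; exact Nat.zero_le _⟩
  · obtain ⟨e, he, rfl⟩ := Finset.mem_image.1 hw
    refine ⟨inn s t A e, inn_mem s t A he, ?_⟩
    unfold inn H131.out
    split_ifs
    · exact hadj e
    · rw [G.d_comm]; exact hadj e

/-- **the clusters which touch `A` and meet the ball meet a block of `NB`** -/
theorem Xi_oc_le {S : Type*} (σ : Sys V E S) {G : Geo 𝔹} {bk : V → 𝔹}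
    (hadj : ∀ e, G.d (bk (σ.s e)) (bk (σ.t e)) ≤ 1) (a : 𝔹) (R : ℕ) {ε : ℝ} (hε : 0 ≤ ε)
    (A : Finset V) (om : Finset E) (x : V → S) :
    H682.Xi σ (fun v => ε * lam G bk a R v) (oc σ.s σ.t A) om x ≤
      ∑ β ∈ NB G bk a R A, H682.Xi σ (fun v => ε * lam G bk a R v) (blkF bk β) om x := by
  classical
  set g : V → ℝ := fun v => ε * lam G bk a R v with hg
  have hg0 : ∀ v, 0 ≤ g v := fun v => mul_nonneg hε (lam_nonneg _ _ _ _ _)
  set F : V → ℝ := fun u => g u * |(σ.d (x u) : ℝ)| *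
    ∑ v ∈ clus σ.s σ.t om u, g v * |(σ.d (x v) : ℝ)| with hF
  have hF0 : ∀ u, 0 ≤ F u := fun u => mul_nonneg (mul_nonneg (hg0 u) (abs_nonneg _))
    (Finset.sum_nonneg fun v _ => mul_nonneg (hg0 v) (abs_nonneg _))
  have hsub : (hull σ.s σ.t om (oc σ.s σ.t A)).filter (fun u => G.d a (bk u) ≤ R) ⊆
      (NB G bk a R A).biUnion fun β => hull σ.s σ.t om (blkF bk β) := by
    intro u hu
    rw [Finset.mem_filter, mem_hull] at hu
    obtain ⟨⟨w, hw, h1⟩, h2⟩ := hu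
    rw [Finset.mem_biUnion]
    by_cases h3 : G.d a (bk w) ≤ R
    · refine ⟨bk w, ?_, mem_hull.2 ⟨w, ?_, h1⟩⟩
      · unfold NB
        rw [Finset.mem_filter, G.mem_ball]
        exact ⟨h3, Or.inl (near_oc hadj hw)⟩
      · unfold blkF
        rw [Finset.mem_filter]
        exact ⟨Finset.mem_univ _, rfl⟩
    · obtain ⟨z, hz, hzR⟩ := conn_blocks G hadj h1.symm a (k := R) h2 (by omega)
      refine ⟨bk z, ?_, mem_hull.2 ⟨z, ?_, hz.symm⟩⟩
      · unfold NB
        rw [Finset.mem_filter, G.mem_ball]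
        exact ⟨hzR.le, Or.inr hzR⟩
      · unfold blkF
        rw [Finset.mem_filter]
        exact ⟨Finset.mem_univ _, rfl⟩
  have h1 : H682.Xi σ g (oc σ.s σ.t A) om x =
      ∑ u ∈ (hull σ.s σ.t om (oc σ.s σ.t A)).filter (fun u => G.d a (bk u) ≤ R), F u := by
    unfold H682.Xi
    rw [Finset.sum_filter]
    refine Finset.sum_congr rfl fun u _ => ?_
    split_ifs with h
    · rfl
    · have : g u = 0 := by simp only [hg, lam]; rw [if_neg h, mul_zero]
      rw [this]; simp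
  rw [h1]
  refine (Finset.sum_le_sum_of_subset_of_nonneg hsub fun u _ _ => hF0 u).trans ?_
  clear hsub h1
  unfold H682.Xi
  induction NB G bk a R A using Finset.induction_on with
  | empty => simp
  | insert β T hβ ih =>
    rw [Finset.biUnion_insert, Finset.sum_insert hβ]
    have h3 := Finset.sum_union_inter (s₁ := hull σ.s σ.t om (blkF bk β))
      (s₂ := T.biUnion fun β => hull σ.s σ.t om (blkF bk β)) (f := F)
    have h4 : 0 ≤ ∑ u ∈ hull σ.s σ.t om (blkF bk β) ∩ T.biUnion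
      (fun β => hull σ.s σ.t om (blkF bk β)), F u := Finset.sum_nonneg fun u _ => hF0 u
    have h5 : ∑ u ∈ hull σ.s σ.t om (blkF bk β), g u * |(σ.d (x u) : ℝ)| *
        ∑ v ∈ clus σ.s σ.t om u, g v * |(σ.d (x v) : ℝ)| =
        ∑ u ∈ hull σ.s σ.t om (blkF bk β), F u := rfl
    rw [h5]
    linarith

/-- the mean of the squared masses of the clusters which meet `B` (values in `[0,∞]`) -/
noncomputable def XE {S : Type*} (σ : Sys V E S) (g : V → ℝ) (B : Finset V) : ℝ≥0∞ :=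
  ∑ om : Finset E, ∑' x, ENNReal.ofReal (σ.wt om x) * ENNReal.ofReal (H682.Xi σ g B om x)

/-- **`Xi` of the gas** -/
theorem gas_Xi {S : Type*} (σ : Sys V E S) {G : Geo 𝔹} {bk : V → 𝔹}
    (hadj : ∀ e, G.d (bk (σ.s e)) (bk (σ.t e)) ≤ 1) {ε : ℝ} (hε : 0 ≤ ε)
    (hZ : 0 < ∑' x, σ.tot x) (a : 𝔹) (R : ℕ) (β : 𝔹) :
    XE σ (fun v => ε * lam G bk a R v) (blkF bk β) =
      ENNReal.ofReal (∑' x, σ.tot x) * (gas σ G bk ε hadj).Xi a R β := by
  classical
  set g : V → ℝ := fun v => ε * lam G bk a R v with hg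
  have hg0 : ∀ v, 0 ≤ g v := fun v => mul_nonneg hε (lam_nonneg _ _ _ _ _)
  unfold XE Gas.Xi H352.S
  rw [← ENNReal.tsum_mul_left]
  rw [tsum_trip (fun om x C => ENNReal.ofReal (∑' x, σ.tot x) *
    ((gas σ G bk ε hadj).p (om, x, C) * (H352.ind (β ∈ (gas σ G bk ε hadj).vis (om, x, C)) *
      (gas σ G bk ε hadj).XB a R (om, x, C) ^ 2)))]
  refine Finset.sum_congr rfl fun om _ => tsum_congr fun x => ?_
  -- Xi as a sum over the clusters
  have key := sum_over_clus σ.s σ.t om (fun u C => ENNReal.ofReal (if ∃ w ∈ blkF bk β, w ∈ C then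
    g u * |(σ.d (x u) : ℝ)| * ∑ v ∈ C, g v * |(σ.d (x v) : ℝ)| else 0))
  have e1 : ENNReal.ofReal (H682.Xi σ g (blkF bk β) om x) =
      ∑ u, ENNReal.ofReal (if ∃ w ∈ blkF bk β, w ∈ clus σ.s σ.t om u then
    g u * |(σ.d (x u) : ℝ)| * ∑ v ∈ clus σ.s σ.t om u, g v * |(σ.d (x v) : ℝ)| else 0) := by
    rw [← ENNReal.ofReal_sum_of_nonneg]
    · congr 1
      unfold H682.Xi
      rw [← Finset.sum_filter]
      refine Finset.sum_congr ?_ fun _ _ => rfl
      ext u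
      rw [mem_hull, Finset.mem_filter]
      constructor
      · rintro ⟨w, hw, h⟩
        exact ⟨Finset.mem_univ _, w, hw, mem_clus.2 h.symm⟩
      · rintro ⟨_, w, hw, h⟩
        exact ⟨w, hw, (mem_clus.1 h).symm⟩
    · intro u _
      split_ifs
      · exact mul_nonneg (mul_nonneg (hg0 u) (abs_nonneg _))
          (Finset.sum_nonneg fun v _ => mul_nonneg (hg0 v) (abs_nonneg _))
      · exact le_rfl
  rw [e1, key, Finset.mul_sum]
  refine Finset.sum_congr rfl fun C _ => ?_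
  by_cases hC : IsC σ.s σ.t om C
  swap
  · rw [if_neg hC]
    have h0 : (gas σ G bk ε hadj).p (om, x, C) = 0 := by
      show (if IsC σ.s σ.t om C then _ else (0 : ℝ≥0∞)) = 0
      rw [if_neg hC]
    rw [h0]
    simp
  rw [if_pos hC]
  have hp : (gas σ G bk ε hadj).p (om, x, C) =
      ENNReal.ofReal (σ.wt om x / ∑' x, σ.tot x) := by
    show (if IsC σ.s σ.t om C then _ else (0 : ℝ≥0∞)) = _
    rw [if_pos hC]
  have hvis : β ∈ (gas σ G bk ε hadj).vis (om, x, C) ↔ ∃ w ∈ blkF bk β, w ∈ C := by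
    show β ∈ (cC σ.s σ.t om C).image bk ↔ _
    rw [cC_of hC, Finset.mem_image]
    unfold blkF
    constructor
    · rintro ⟨w, hw, h⟩
      exact ⟨w, Finset.mem_filter.2 ⟨Finset.mem_univ _, h⟩, hw⟩
    · rintro ⟨w, hw, h⟩
      exact ⟨w, h, (Finset.mem_filter.1 hw).2⟩
  set r : ℝ := ∑ v ∈ C, g v * |(σ.d (x v) : ℝ)| with hr
  have hr0 : 0 ≤ r := Finset.sum_nonneg fun v _ => mul_nonneg (hg0 v) (abs_nonneg _)
  have hXB : (gas σ G bk ε hadj).XB a R (om, x, C) = ENNReal.ofReal r := by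
    obtain ⟨u, rfl⟩ := hC
    rw [XB_eq hε]
    rfl
  rw [hp, hXB, ← mul_assoc (ENNReal.ofReal (∑' x, σ.tot x)), ← ENNReal.ofReal_mul hZ.le,
    mul_div_cancel₀ _ hZ.ne']
  congr 1
  by_cases h : ∃ w ∈ blkF bk β, w ∈ C
  · simp only [if_pos h]
    rw [H352.ind_true (hvis.2 h), one_mul, ← ENNReal.ofReal_pow hr0,
      ← ENNReal.ofReal_sum_of_nonneg]
    · congr 1
      rw [← Finset.sum_mul, pow_two]
    · intro u _
      exact mul_nonneg (mul_nonneg (hg0 u) (abs_nonneg _)) hr0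
  · simp only [if_neg h]
    rw [H352.ind_false (fun h' => h (hvis.1 h'))]
    simp

/-- a real series is at most the series in `[0, ∞]` -/
theorem ofReal_tsum_le {ι : Type*} {f : ι → ℝ} (hf : ∀ i, 0 ≤ f i) :
    ENNReal.ofReal (∑' i, f i) ≤ ∑' i, ENNReal.ofReal (f i) := by
  by_cases hs : Summable f
  · exact (ENNReal.ofReal_tsum_of_nonneg hf hs).le
  · rw [tsum_eq_zero_of_not_summable hs]
    simp

/-- **the bound of the loss in E3** -/
theorem loss_le {S : Type*} (σ : Sys V E S) {G : Geo 𝔹} {bk : V → 𝔹}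
    (hadj : ∀ e, G.d (bk (σ.s e)) (bk (σ.t e)) ≤ 1) {ε : ℝ} (hε : 0 ≤ ε)
    (hZ : 0 < ∑' x, σ.tot x) (a : 𝔹) (R : ℕ) {M : ℝ} (hM : 0 ≤ M)
    (hXi : ∀ β ∈ G.ball a R, (gas σ G bk ε hadj).Xi a R β ≤ ENNReal.ofReal M)
    (A : Finset V) :
    (∑ om : Finset E, ∑' x, σ.wt om x *
      H682.Xi σ (fun v => ε * lam G bk a R v) (oc σ.s σ.t A) om x) / ∑' x, σ.tot x ≤
      M * ((NB G bk a R A).card : ℝ) := by
  classical
  set g : V → ℝ := fun v => ε * lam G bk a R v with hg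
  have hg0 : ∀ v, 0 ≤ g v := fun v => mul_nonneg hε (lam_nonneg _ _ _ _ _)
  set Z := ∑' x, σ.tot x with hZd
  have hX0 : ∀ om x, 0 ≤ H682.Xi σ g (oc σ.s σ.t A) om x := fun om x => Xi_nonneg σ hg0 _ om x
  have hXb : ∀ β om x, 0 ≤ H682.Xi σ g (blkF bk β) om x := fun β om x => Xi_nonneg σ hg0 _ om x
  rw [div_le_iff₀ hZ]
  have hR0 : 0 ≤ M * ((NB G bk a R A).card : ℝ) * Z := by positivity
  rw [← ENNReal.ofReal_le_ofReal_iff hR0]
  rw [ENNReal.ofReal_sum_of_nonneg fun om _ => tsum_nonneg fun x =>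
    mul_nonneg (σ.wt_nonneg om x) (hX0 om x)]
  have h1 : ∀ om : Finset E, ENNReal.ofReal (∑' x, σ.wt om x * H682.Xi σ g (oc σ.s σ.t A) om x) ≤
      ∑ β ∈ NB G bk a R A, ∑' x, ENNReal.ofReal (σ.wt om x) *
        ENNReal.ofReal (H682.Xi σ g (blkF bk β) om x) := by
    intro om
    refine (ofReal_tsum_le fun x => mul_nonneg (σ.wt_nonneg om x) (hX0 om x)).trans ?_
    rw [← Summable.tsum_finsetSum fun _ _ => ENNReal.summable]
    refine ENNReal.tsum_le_tsum fun x => ?_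
    rw [ENNReal.ofReal_mul (σ.wt_nonneg om x), ← Finset.mul_sum,
      ← ENNReal.ofReal_sum_of_nonneg fun β _ => hXb β om x]
    exact mul_le_mul' le_rfl (ENNReal.ofReal_le_ofReal (Xi_oc_le σ hadj a R hε A om x))
  refine (Finset.sum_le_sum fun om _ => h1 om).trans ?_
  rw [Finset.sum_comm]
  have h2 : ∀ β ∈ NB G bk a R A, ∑ om : Finset E, ∑' x, ENNReal.ofReal (σ.wt om x) *
        ENNReal.ofReal (H682.Xi σ g (blkF bk β) om x) ≤ ENNReal.ofReal (M * Z) := by
    intro β hβ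
    have h3 : β ∈ G.ball a R := (Finset.mem_filter.1 hβ).1
    have h4 := gas_Xi σ hadj hε hZ a R β
    unfold XE at h4
    rw [h4, mul_comm M, ENNReal.ofReal_mul hZ.le]
    exact mul_le_mul' le_rfl (hXi β h3)
  refine (Finset.sum_le_sum h2).trans (le_of_eq ?_)
  rw [Finset.sum_const, nsmul_eq_mul, ← ENNReal.ofReal_natCast,
    ← ENNReal.ofReal_mul (Nat.cast_nonneg _)]
  congr 1
  ring

end xi

/-! ### the two systems -/

section inst

variable {V E 𝔹 : Type} [Fintype V] [DecidableEq V] [Fintype E] [DecidableEq E]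
  [Fintype 𝔹] [DecidableEq 𝔹]
variable {s t : E → V} {b : E → ℝ} {m : V → ℝ}

/-- mean of `F`, heights `0` on `X` -/
noncomputable def E0 (s t : E → V) (b : E → ℝ) (m : V → ℝ) (X : Set V) (F : (V → ℤ) → ℝ) : ℝ :=
  SS (grd s t) b m X F / SS (grd s t) b m X fun _ => 1

/-- the logarithm of the exponential moment with zero boundary values is at least half of the
variance -/
def LPV (s t : E → V) (b : E → ℝ) (m : V → ℝ) : Prop :=
  ∀ (A : Finset V) (τ : V → ℝ),
    E0 s t b m ((oc s t A : Finset V) : Set V) (fun h => lf τ h ^ 2) / 2 ≤ Lp s t A b m τ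

theorem E0_smul (X : Set V) (θ : ℝ) (g : V → ℝ) :
    E0 s t b m X (fun h => lf (fun v => θ * g v) h ^ 2) =
      θ ^ 2 * E0 s t b m X (fun h => lf g h ^ 2) := by
  unfold E0 SS
  rw [← mul_div_assoc, ← tsum_mul_left]
  congr 1
  refine tsum_congr fun h => ?_
  have : lf (fun v => θ * g v) h = θ * lf g h := by
    unfold H708.lf
    rw [Finset.mul_sum]
    exact Finset.sum_congr rfl fun v _ => by ring
  simp only [this]
  ring

theorem sum_tot_syM (hb : ∀ e, 0 ≤ b e) :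
    ∑' x, (H682.syM s t b m hb).tot x = SS (grd s t) b m ∅ (fun _ => 1) := by
  unfold SS
  refine tsum_congr fun x => ?_
  rw [mul_one, ← Wm_gs]
  rfl

/-- **the lower bound of the rest**: E2 + E3 -/
theorem Lp_ge (hb : ∀ e, 0 ≤ b e) (hm : ∀ v, 0 < m v) (hL : LPV s t b m) {G : Geo 𝔹}
    {bk : V → 𝔹} (hadj : ∀ e, G.d (bk (s e)) (bk (t e)) ≤ 1) {ε : ℝ} (hε : 0 ≤ ε) (a : 𝔹)
    (R : ℕ) {M : ℝ} (hM : 0 ≤ M)
    (hXi : ∀ β ∈ G.ball a R, (gas (S1 s t hb m) G bk ε hadj).Xi a R β ≤ ENNReal.ofReal M)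
    (θ : ℝ) (A : Finset V) :
    (1 / 2 : ℝ) * θ ^ 2 * (E0 s t b m ∅ (fun h => lf (fun v => ε * lam G bk a R v) h ^ 2) -
      M * ((NB G bk a R A).card : ℝ)) ≤
      Lp s t A b m (fun v => θ * (ε * lam G bk a R v)) := by
  set g : V → ℝ := fun v => ε * lam G bk a R v with hg
  have h1 := e3_var s t hb hm (oc s t A) g
  have hZ : 0 < ∑' x, (H682.syM s t b m hb).tot x := by
    rw [sum_tot_syM]
    exact H708.SS_one_pos (grd s t) hb hm ∅
  have h2 := loss_le (H682.syM s t b m hb) (G := G) (bk := bk) hadj hε hZ a R hM (by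
    intro β hβ
    have := hXi β hβ
    simp only [syM_eq hb]
    exact this) A
  rw [sum_tot_syM] at h2
  have h3 : E0 s t b m ∅ (fun h => lf g h ^ 2) - M * ((NB G bk a R A).card : ℝ) ≤
      E0 s t b m ((oc s t A : Finset V) : Set V) (fun h => lf g h ^ 2) := by
    have h4 := h1.trans h2
    unfold E0
    linarith
  have h5 := hL A (fun v => θ * g v)
  rw [E0_smul] at h5
  refine le_trans ?_ h5
  have := mul_le_mul_of_nonneg_left h3 (by positivity : 0 ≤ (1 / 2 : ℝ) * θ ^ 2)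
  linarith

theorem restZ_const {S : Type*} (σ : Sys V E S) (A : Finset V) (x : V → S) (c : ℝ≥0∞) :
    σ.restZ A x (fun _ => c) = c * σ.restZ A x (fun _ => 1) := by
  unfold Sys.restZ
  rw [← ENNReal.tsum_mul_left]
  exact tsum_congr fun y => by ring

/-- weights of the model -/
theorem wt_b (s t : E → V) (hb : ∀ e, 0 ≤ b e) :
    H871.Wt (T1.H897.Wk s t fun e => wI (b e)) :=
  H871.wt_Wk (fun e n => wI_nonneg (hb e) n)
    (fun e => ⟨wI (b e) 0, fun n => wI_anti (hb e) (by rw [abs_zero]; exact abs_nonneg _)⟩)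
    (fun e => wI_zero_pos (hb e))

theorem S2_eq (hb : ∀ e, 0 ≤ b e) (f : V → ℝ) : S2 s t hb m f =
    two s t (fun e => wI (b e)) (fun e n => wI_nonneg (hb e) n) (fun e => T1.H897.logC_wI (hb e))
      (gaF m f) (gaF_nonneg m f) := rfl

theorem S1_eq (hb : ∀ e, 0 ≤ b e) : S1 s t hb m =
    one s t (fun e => wI (b e)) (fun e n => wI_nonneg (hb e) n) (fun e n => wI_neg _ _)
      (fun e => T1.H897.logC_wI (hb e)) (gaF m fun _ => 0) (gaF_nonneg m _) (gaF_even m) := rfl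

theorem S2_sum_tot (hb : ∀ e, 0 ≤ b e) (hm : ∀ v, 0 < m v) (f : V → ℝ) :
    ∑' x, (S2 s t hb m f).tot x = H871.Z (T1.H897.Wk s t fun e => wI (b e)) m f ^ 2 := by
  rw [S2_eq]
  have h := two_tilt (fun e n => wI_nonneg (hb e) n) (fun e => T1.H897.logC_wI (hb e))
    (wt_b s t hb) hm f (fun _ => 0)
  have hE := two_ExpS (fun e n => wI_nonneg (hb e) n) (fun e => T1.H897.logC_wI (hb e))
    (wt_b s t hb) hm f (fun _ => 0)
  simp only [zero_mul, Finset.sum_const_zero, neg_zero, Real.exp_zero, mul_one, Sys.pr] at h hE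
  rw [← ENNReal.ofReal_tsum_of_nonneg (fun x => Sys.tot_nonneg _ x) hE] at h
  have h0 := (wt_b s t hb).Z_pos hm f
  unfold H871.Z at h0 ⊢
  have h1 := congrArg ENNReal.toReal h
  rw [ENNReal.toReal_ofReal (tsum_nonneg fun x => Sys.tot_nonneg _ x),
    ENNReal.toReal_ofReal (mul_nonneg h0.le h0.le)] at h1
  rw [h1, pow_two]

theorem S1_sum_tot (hb : ∀ e, 0 ≤ b e) :
    ∑' x, (S1 s t hb m).tot x = H871.Z (T1.H897.Wk s t fun e => wI (b e)) m 0 := by
  rw [S1_eq]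
  unfold H871.Z
  refine tsum_congr fun x => ?_
  rw [one_tot]
  rfl

variable {ε : ℝ}

/-- **TILT, two copies, any real background `f`**, from a bound of `Xi` of one copy -/
theorem tilt_two (hb : ∀ e, 0 ≤ b e) (hε : 0 < ε) (hL : LPV s t b fun _ => ε) (f : V → ℝ)
    {G : Geo 𝔹} {bk : V → 𝔹} (hadj : ∀ e, G.d (bk (s e)) (bk (t e)) ≤ 1) {a : 𝔹} {R : ℕ}
    (hblk : ε * ((univ.filter fun v => bk v = a).card : ℝ) ≤ 1) {M : ℝ} (hM : 0 ≤ M)
    (hXi : ∀ β ∈ G.ball a R,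
      (gas (S1 s t hb fun _ => ε) G bk ε hadj).Xi a R β ≤ ENNReal.ofReal M)
    {K y k0 : ℝ} (hk0 : H871.kap (T1.H897.Wk s t fun e => wI (b e)) (fun _ => ε) ≤ k0)
    (hLam : ε * nL G bk a R - E0 s t b (fun _ => ε) ∅
        (fun h => lf (fun v => ε * lam G bk a R v) h ^ 2) ≤
      K * (y * ((R : ℝ) + 1) ^ 2 + ((R : ℝ) + 1)))
    (hK1 : 4 * Real.exp (3 + k0) ≤ K) (hK2 : 160 ≤ K) :
    (gas (S2 s t hb (fun _ => ε) f) G bk ε hadj).Tilt K y a R M := by
  have hm : ∀ v : V, 0 < (fun _ : V => ε) v := fun _ => hε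
  have hZ : 0 < ∑' x, (S2 s t hb (fun _ => ε) f).tot x := by
    rw [S2_sum_tot hb hm f]
    exact pow_pos ((wt_b s t hb).Z_pos hm f) 2
  refine tilt_abs hε hZ (two_ExpS (fun e n => wI_nonneg (hb e) n)
    (fun e => T1.H897.logC_wI (hb e)) (wt_b s t hb) hm f) (κ := 1) (k0 := k0) zero_le_one
    (fun g => ?_) hblk (M := M)
    (Sg := E0 s t b (fun _ => ε) ∅ (fun h => lf (fun v => ε * lam G bk a R v) h ^ 2)) hM ?_
    (by linarith) (by simpa using hK1) (by linarith)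
  · rw [S2_sum_tot hb hm f]
    refine (two_mgf (fun e n => wI_nonneg (hb e) n) (fun e => T1.H897.logC_wI (hb e))
      (wt_b s t hb) hm (fun e n => wI_neg _ _) (H22.gin_Wk s t hb hm) f g).trans ?_
    refine ENNReal.ofReal_le_ofReal (mul_le_mul_of_nonneg_right (Real.exp_le_exp.2 ?_)
      (by positivity))
    rw [one_mul, Finset.sum_div]
    linarith
  · intro θ hθ hθ1 A x hA
    rw [restZ_const]
    refine le_trans (mul_le_mul' (ENNReal.ofReal_le_ofReal (Real.exp_le_exp.2 ?_)) le_rfl)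
      (RB_two s t A hb (fun _ => ε) f (fun v => θ * (ε * lam G bk a R v)) hm x hA)
    have := Lp_ge hb hm hL hadj hε.le a R hM hXi θ A
    linarith

/-- **TILT, one copy, background `0`** -/
theorem tilt_one (hb : ∀ e, 0 ≤ b e) (hε : 0 < ε) (hL : LPV s t b fun _ => ε)
    {G : Geo 𝔹} {bk : V → 𝔹} (hadj : ∀ e, G.d (bk (s e)) (bk (t e)) ≤ 1) {a : 𝔹} {R : ℕ}
    (hblk : ε * ((univ.filter fun v => bk v = a).card : ℝ) ≤ 1) {M : ℝ} (hM : 0 ≤ M)
    (hXi : ∀ β ∈ G.ball a R,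
      (gas (S1 s t hb fun _ => ε) G bk ε hadj).Xi a R β ≤ ENNReal.ofReal M)
    {K y : ℝ}
    (hLam : ε * nL G bk a R - E0 s t b (fun _ => ε) ∅
        (fun h => lf (fun v => ε * lam G bk a R v) h ^ 2) ≤
      K * (y * ((R : ℝ) + 1) ^ 2 + ((R : ℝ) + 1)))
    (hy : 0 ≤ y) (hK1 : 4 * Real.exp 2 ≤ K) (hK2 : 80 ≤ K) :
    (gas (S1 s t hb fun _ => ε) G bk ε hadj).Tilt K y a R M := by
  have hm : ∀ v : V, 0 < (fun _ : V => ε) v := fun _ => hε
  have hZ : 0 < ∑' x, (S1 s t hb fun _ => ε).tot x := by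
    rw [S1_sum_tot hb]
    exact (wt_b s t hb).Z_pos hm 0
  have hK0 : 0 ≤ K * (y * ((R : ℝ) + 1) ^ 2 + ((R : ℝ) + 1)) := by positivity
  refine tilt_abs hε hZ (one_ExpS (fun e n => wI_nonneg (hb e) n) (fun e n => wI_neg _ _)
    (fun e => T1.H897.logC_wI (hb e)) (wt_b s t hb) hm) (κ := 1 / 2) (k0 := 0) (by norm_num)
    (fun g => ?_) hblk (M := M)
    (Sg := E0 s t b (fun _ => ε) ∅ (fun h => lf (fun v => ε * lam G bk a R v) h ^ 2)) hM ?_
    (by linarith) ?_ (by linarith)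
  · rw [S1_sum_tot hb]
    refine (one_mgf (fun e n => wI_nonneg (hb e) n) (fun e n => wI_neg _ _)
      (fun e => T1.H897.logC_wI (hb e)) (wt_b s t hb) hm (fun f => H41.Z_le_zero s t hb hm f)
      g).trans ?_
    refine ENNReal.ofReal_le_ofReal (mul_le_mul_of_nonneg_right (Real.exp_le_exp.2 ?_)
      ((wt_b s t hb).Z_pos hm 0).le)
    rw [← Finset.sum_div, add_zero]
    apply le_of_eq
    field_simp
  · intro θ hθ hθ1 A x hA
    rw [restZ_const]
    refine le_trans (mul_le_mul' (ENNReal.ofReal_le_ofReal (Real.exp_le_exp.2 ?_)) le_rfl)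
      (RB_one s t A hb (fun _ => ε) (fun v => θ * (ε * lam G bk a R v)) hm x hA)
    exact Lp_ge hb hm hL hadj hε.le a R hM hXi θ A
  · refine le_trans (mul_le_mul_of_nonneg_left (Real.exp_le_exp.2 ?_) (by norm_num)) hK1
    norm_num

end inst

end Vale.Agent.P159.TM.H634
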