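import Vale.Agent.P159.TM.H634.E6
import Vale.Agent.P159.TM.H871.Inst

/-!
# P159, row E6: the tilt inequality for a block, and the two instances

`e6_block`: the hypothesis (UB) of `Sys.e6` from exponential moments at `τ + s β` and `τ - s β`.
`two_mgf`, `one_mgf`: the exponential moments of `<g, d>` for two copies in the background `f`
(E1 of `TM/H871`) and for one copy with background `0`.
-/

open Finset
open scoped ENNReal

set_option linter.unusedSectionVars false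
set_option linter.unusedDecidableInType false

namespace Vale.Agent.P159.TM.H60

namespace Sys

section block

variable {V E S : Type*} [Fintype V] [DecidableEq V] [Fintype E] [DecidableEq E] (σ : Sys V E S)

theorem pr_add_mul (τ β : V → ℝ) (s : ℝ) (x : V → S) :
    σ.pr (fun v => τ v + s * β v) univ x = σ.pr τ univ x + s * ∑ u, β u * σ.D x u := by
  unfold pr
  rw [Finset.mul_sum, ← Finset.sum_add_distrib]
  exact Finset.sum_congr rfl fun v _ => by ring

/-- all exponential moments of `d` are finite -/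
def ExpS : Prop := ∀ g : V → ℝ, Summable fun x => σ.tot x * Real.exp (σ.pr g univ x)

theorem abs_le_two_cosh (a : ℝ) : |a| ≤ Real.exp a + Real.exp (-a) := by
  rcases abs_cases a with ⟨h, _⟩ | ⟨h, _⟩
  · rw [h]
    have := Real.add_one_le_exp a
    have := Real.exp_pos (-a)
    linarith
  · rw [h]
    have := Real.add_one_le_exp (-a)
    have := Real.exp_pos a
    linarith

theorem ExpS.F2 (h : σ.ExpS) (τ : V → ℝ) (u v : V) :
    Summable fun x => σ.tot x * |σ.F2 τ u v x| := by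
  have hs : ∀ s1 s2 : ℝ, Summable fun x => σ.tot x *
      (Real.exp (s1 * σ.D x u) * Real.exp (s2 * σ.D x v) * Real.exp (σ.pr τ univ x)) := by
    intro s1 s2
    refine (h (fun w => τ w + ((if w = u then s1 else 0) + (if w = v then s2 else 0)))).congr
      fun x => ?_
    congr 1
    rw [← Real.exp_add, ← Real.exp_add]
    congr 1
    unfold pr
    simp only [add_mul, Finset.sum_add_distrib, ite_mul, zero_mul, Finset.sum_ite_eq',
      Finset.mem_univ, if_true]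
    ring
  have hsum := ((hs 1 1).add (hs 1 (-1))).add ((hs (-1) 1).add (hs (-1) (-1)))
  refine Summable.of_nonneg_of_le (fun x => mul_nonneg (σ.tot_nonneg x) (abs_nonneg _))
    (fun x => ?_) hsum
  simp only [← mul_add]
  refine mul_le_mul_of_nonneg_left ?_ (σ.tot_nonneg x)
  unfold Sys.F2
  rw [abs_mul, abs_mul, abs_of_pos (Real.exp_pos _)]
  have h1 := abs_le_two_cosh (σ.D x u)
  have h2 := abs_le_two_cosh (σ.D x v)
  have h3 : |σ.D x u| * |σ.D x v| ≤ (Real.exp (σ.D x u) + Real.exp (-σ.D x u)) *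
      (Real.exp (σ.D x v) + Real.exp (-σ.D x v)) :=
    mul_le_mul h1 h2 (abs_nonneg _) (by positivity)
  calc |σ.D x u| * |σ.D x v| * Real.exp (σ.pr τ univ x)
      ≤ (Real.exp (σ.D x u) + Real.exp (-σ.D x u)) *
      (Real.exp (σ.D x v) + Real.exp (-σ.D x v)) * Real.exp (σ.pr τ univ x) :=
        mul_le_mul_of_nonneg_right h3 (Real.exp_pos _).le
    _ = _ := by
        simp only [one_mul, neg_mul]
        ring

/-- **(UB) from exponential moments** -/
theorem ub_block {β τ : V → ℝ} {s K1 K2 : ℝ} (hs : 0 < s) (hK1 : 0 ≤ K1) (hK2 : 0 ≤ K2)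
    (h1 : ∑' x, ENNReal.ofReal (σ.tot x *
      Real.exp (σ.pr (fun v => τ v + s * β v) univ x)) ≤ ENNReal.ofReal K1)
    (h2 : ∑' x, ENNReal.ofReal (σ.tot x *
      Real.exp (σ.pr (fun v => τ v + (-s) * β v) univ x)) ≤ ENNReal.ofReal K2) :
    ∑' x, ENNReal.ofReal (σ.tot x * ((∑ u, β u * σ.D x u) ^ 2 * Real.exp (σ.pr τ univ x)))
      ≤ ENNReal.ofReal ((s ^ 2)⁻¹ * (K1 + K2)) := by
  have hs2 : 0 ≤ (s ^ 2)⁻¹ := by positivity
  have e : ∀ x, ENNReal.ofReal (σ.tot x * ((∑ u, β u * σ.D x u) ^ 2 *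
      Real.exp (σ.pr τ univ x))) ≤ ENNReal.ofReal ((s ^ 2)⁻¹) *
        (ENNReal.ofReal (σ.tot x * Real.exp (σ.pr (fun v => τ v + s * β v) univ x)) +
        ENNReal.ofReal (σ.tot x * Real.exp (σ.pr (fun v => τ v + (-s) * β v) univ x))) := by
    intro x
    rw [← ENNReal.ofReal_add (mul_nonneg (σ.tot_nonneg x) (Real.exp_pos _).le)
      (mul_nonneg (σ.tot_nonneg x) (Real.exp_pos _).le), ← ENNReal.ofReal_mul hs2]
    apply ENNReal.ofReal_le_ofReal
    rw [σ.pr_add_mul, σ.pr_add_mul, Real.exp_add, Real.exp_add]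
    have h3 := H634.sq_le_cosh (x := ∑ u, β u * σ.D x u) hs
    rw [Real.cosh_eq] at h3
    have h4 := mul_le_mul_of_nonneg_left h3
      (mul_nonneg (σ.tot_nonneg x) (Real.exp_pos (σ.pr τ univ x)).le)
    calc σ.tot x * ((∑ u, β u * σ.D x u) ^ 2 * Real.exp (σ.pr τ univ x))
        = σ.tot x * Real.exp (σ.pr τ univ x) * (∑ u, β u * σ.D x u) ^ 2 := by ring
      _ ≤ _ := h4
      _ = _ := by
        rw [neg_mul]
        ring
  refine (ENNReal.tsum_le_tsum e).trans ?_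
  rw [ENNReal.tsum_mul_left, ENNReal.tsum_add]
  rw [ENNReal.ofReal_mul hs2, ENNReal.ofReal_add hK1 hK2]
  gcongr

/-- **the tilt inequality from exponential moments** -/
theorem e6_block {β τ : V → ℝ} (hβ : ∀ v, 0 ≤ β v) (hτ : ∀ v, 0 ≤ τ v)
    (Φ : Finset V → Prop) (c : Finset V → ℝ) (hE : σ.ExpS)
    (RB : ∀ A x, Φ A → (∀ v ∈ A, σ.d (x v) ≠ 0) →
      σ.restZ A x (fun _ => ENNReal.ofReal (Real.exp (c A))) ≤
        σ.restZ A x (fun z => ENNReal.ofReal (Real.exp (σ.pr τ Aᶜ z))))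
    {s K : ℝ} (hs : 0 < s) (hK : 0 ≤ K)
    (h1 : ∑' x, ENNReal.ofReal (σ.tot x *
      Real.exp (σ.pr (fun v => τ v + s * β v) univ x)) ≤ ENNReal.ofReal K)
    (h2 : ∑' x, ENNReal.ofReal (σ.tot x *
      Real.exp (σ.pr (fun v => τ v + (-s) * β v) univ x)) ≤ ENNReal.ofReal K) :
    Summable (σ.e6q β Φ) ∧ Summable (fun i => σ.e6q β Φ i * σ.e6L τ c i) ∧
      (∀ m : ℝ, m * ∑' i, σ.e6q β Φ i ≤ ∑' i, σ.e6q β Φ i * σ.e6L τ c i →
        (∑' i, σ.e6q β Φ i) * Real.exp m ≤ 4 * K / s ^ 2) ∧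
      (0 < ∑' i, σ.e6q β Φ i → (∑' i, σ.e6q β Φ i) *
        Real.exp ((∑' i, σ.e6q β Φ i * σ.e6L τ c i) / ∑' i, σ.e6q β Φ i) ≤ 4 * K / s ^ 2) := by
  have hB : 2 * ((s ^ 2)⁻¹ * (K + K)) = 4 * K / s ^ 2 := by
    field_simp
    ring
  have h := σ.e6 hβ hτ Φ c (B := (s ^ 2)⁻¹ * (K + K)) (by positivity) (fun u v => hE.F2 σ τ u v)
    RB (σ.ub_block hs hK hK h1 h2)
  rw [hB] at h
  exact h

end block

end Sys

/-! ### the instances -/

section inst

variable {V E : Type*} [Fintype V] [DecidableEq V] [Fintype E] [DecidableEq E]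
variable {s t : E → V} {w : E → ℤ → ℝ} {m : V → ℝ}

/-- Gaussian site weight in the background `f` -/
noncomputable def gaF (m f : V → ℝ) (x : V) (n : ℤ) : ℝ :=
  Real.exp (-(m x / 2) * (n - f x) ^ 2)

theorem gaF_nonneg (m f : V → ℝ) (x : V) (n : ℤ) : 0 ≤ gaF m f x n := (Real.exp_pos _).le

theorem prod_gaF (m f : V → ℝ) (h : V → ℤ) : ∏ v, gaF m f v (h v) = H871.gs m f h := by
  unfold gaF H871.gs
  rw [← Real.exp_sum, ← Finset.sum_neg_distrib]
  congr 1
  exact Finset.sum_congr rfl fun v _ => by ring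

/-- two copies: the total weight -/
theorem two_tot (hw0 : ∀ e n, 0 ≤ w e n) (hw : ∀ e, T1.H897.LogC (w e)) (f : V → ℝ)
    (x : V → ℤ × ℤ) :
    (two s t w hw0 hw (gaF m f) (gaF_nonneg m f)).tot x =
      (T1.H897.Wk s t w (fun v => (x v).1) * H871.gs m f (fun v => (x v).1)) *
      (T1.H897.Wk s t w (fun v => (x v).2) * H871.gs m f (fun v => (x v).2)) := by
  unfold Sys.tot T1.H897.Wk
  show (∏ e, w e ((x (t e)).1 - (x (s e)).1) * w e ((x (t e)).2 - (x (s e)).2)) *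
    (∏ v, gaF m f v (x v).1 * gaF m f v (x v).2) = _
  rw [Finset.prod_mul_distrib, Finset.prod_mul_distrib, ← prod_gaF, ← prod_gaF]
  ring

theorem two_pr (hw0 : ∀ e n, 0 ≤ w e n) (hw : ∀ e, T1.H897.LogC (w e)) (f g : V → ℝ)
    (x : V → ℤ × ℤ) :
    (two s t w hw0 hw (gaF m f) (gaF_nonneg m f)).pr g univ x =
      (∑ v, g v * (((x v).1 : ℤ) : ℝ)) + (-∑ v, g v * (((x v).2 : ℤ) : ℝ)) := by
  unfold Sys.pr Sys.D
  show ∑ v, g v * ((((x v).1 - (x v).2 : ℤ)) : ℝ) = _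
  rw [← sub_eq_add_neg, ← Finset.sum_sub_distrib]
  refine Finset.sum_congr rfl fun v _ => ?_
  push_cast
  ring

/-- sums over two copies -/
theorem tsum_pair {ι : Type*} (F G : (ι → ℤ) → ℝ≥0∞) :
    ∑' y : ι → ℤ × ℤ, F (fun v => (y v).1) * G (fun v => (y v).2) =
      (∑' h, F h) * ∑' h, G h := by
  rw [← (Equiv.arrowProdEquivProdArrow ι (fun _ => ℤ) (fun _ => ℤ)).symm.tsum_eq,
    ENNReal.tsum_prod' (f := fun p => _), ← ENNReal.tsum_mul_right]
  refine tsum_congr fun h => ?_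
  rw [← ENNReal.tsum_mul_left]
  rfl

theorem tilt_summable (hW : H871.Wt (T1.H897.Wk s t w)) (hm : ∀ x, 0 < m x) (f g : V → ℝ) :
    Summable fun h : V → ℤ => T1.H897.Wk s t w h * H871.gs m f h *
      Real.exp (∑ x, g x * (h x : ℝ)) := by
  have h1 := (hW.summable hm (fun x => f x + g x / m x)).mul_left
    (Real.exp (∑ x, f x * g x + ∑ x, g x ^ 2 / (2 * m x)))
  refine h1.congr fun h => ?_
  rw [mul_assoc (T1.H897.Wk s t w h), H871.gs_tilt hm]
  ring

theorem tilt_summable_neg (hW : H871.Wt (T1.H897.Wk s t w)) (hm : ∀ x, 0 < m x) (f g : V → ℝ) :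
    Summable fun h : V → ℤ => T1.H897.Wk s t w h * H871.gs m f h *
      Real.exp (-∑ x, g x * (h x : ℝ)) := by
  refine (tilt_summable hW hm f (fun x => -g x)).congr fun h => ?_
  simp only [neg_mul, Finset.sum_neg_distrib]

/-- two copies: the tilted sum -/
theorem two_tilt (hw0 : ∀ e n, 0 ≤ w e n) (hw : ∀ e, T1.H897.LogC (w e))
    (hW : H871.Wt (T1.H897.Wk s t w)) (hm : ∀ x, 0 < m x) (f g : V → ℝ) :
    ∑' x, ENNReal.ofReal ((two s t w hw0 hw (gaF m f) (gaF_nonneg m f)).tot x *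
      Real.exp ((two s t w hw0 hw (gaF m f) (gaF_nonneg m f)).pr g univ x)) =
    ENNReal.ofReal ((∑' h : V → ℤ, T1.H897.Wk s t w h * H871.gs m f h *
        Real.exp (∑ x, g x * (h x : ℝ))) *
      (∑' h : V → ℤ, T1.H897.Wk s t w h * H871.gs m f h *
        Real.exp (-∑ x, g x * (h x : ℝ)))) := by
  have n1 : ∀ h : V → ℤ, 0 ≤ T1.H897.Wk s t w h * H871.gs m f h := fun h =>
    mul_nonneg (hW.nonneg h) (H871.gs_pos m f h).le
  have n2 : ∀ h : V → ℤ, 0 ≤ T1.H897.Wk s t w h * H871.gs m f h *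
      Real.exp (∑ x, g x * (h x : ℝ)) := fun h => mul_nonneg (n1 h) (Real.exp_pos _).le
  have n3 : ∀ h : V → ℤ, 0 ≤ T1.H897.Wk s t w h * H871.gs m f h *
      Real.exp (-∑ x, g x * (h x : ℝ)) := fun h => mul_nonneg (n1 h) (Real.exp_pos _).le
  set F : (V → ℤ) → ℝ≥0∞ := fun h => ENNReal.ofReal (T1.H897.Wk s t w h * H871.gs m f h *
        Real.exp (∑ x, g x * (h x : ℝ))) with hF
  set G : (V → ℤ) → ℝ≥0∞ := fun h => ENNReal.ofReal (T1.H897.Wk s t w h * H871.gs m f h *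
        Real.exp (-∑ x, g x * (h x : ℝ))) with hGG
  have e : ∀ x : V → ℤ × ℤ,
      ENNReal.ofReal ((two s t w hw0 hw (gaF m f) (gaF_nonneg m f)).tot x *
      Real.exp ((two s t w hw0 hw (gaF m f) (gaF_nonneg m f)).pr g univ x)) =
      F (fun v => (x v).1) * G (fun v => (x v).2) := by
    intro x
    simp only [hF, hGG]
    rw [← ENNReal.ofReal_mul (n2 _), two_tot, two_pr, Real.exp_add]
    congr 1
    ring
  rw [tsum_congr e, tsum_pair F G, ENNReal.ofReal_mul (tsum_nonneg n2),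
    ENNReal.ofReal_tsum_of_nonneg n2 (tilt_summable hW hm f g),
    ENNReal.ofReal_tsum_of_nonneg n3 (tilt_summable_neg hW hm f g)]

/-- all exponential moments, two copies -/
theorem two_ExpS (hw0 : ∀ e n, 0 ≤ w e n) (hw : ∀ e, T1.H897.LogC (w e))
    (hW : H871.Wt (T1.H897.Wk s t w)) (hm : ∀ x, 0 < m x) (f : V → ℝ) :
    (two s t w hw0 hw (gaF m f) (gaF_nonneg m f)).ExpS := by
  intro g
  refine (H634.summable_of_ofReal (fun x => mul_nonneg (Sys.tot_nonneg _ x)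
    (Real.exp_pos _).le) (le_of_eq (two_tilt hw0 hw hW hm f g))).1

/-- **E1 in the form of E6, two copies in the background `f`** -/
theorem two_mgf (hw0 : ∀ e n, 0 ≤ w e n) (hw : ∀ e, T1.H897.LogC (w e))
    (hW : H871.Wt (T1.H897.Wk s t w)) (hm : ∀ x, 0 < m x)
    (hev : ∀ e n, w e (-n) = w e n) (hG : H871.Gin (T1.H897.Wk s t w) m) (f g : V → ℝ) :
    ∑' x, ENNReal.ofReal ((two s t w hw0 hw (gaF m f) (gaF_nonneg m f)).tot x *
      Real.exp ((two s t w hw0 hw (gaF m f) (gaF_nonneg m f)).pr g univ x)) ≤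
    ENNReal.ofReal (Real.exp (∑ x, g x ^ 2 / m x + H871.kap (T1.H897.Wk s t w) m) *
      H871.Z (T1.H897.Wk s t w) m f ^ 2) := by
  rw [two_tilt hw0 hw hW hm f g]
  exact ENNReal.ofReal_le_ofReal (H871.mgf_kap hW hm H871.shift_Wk (H871.sup_Wk hw0 hw)
    (H871.even_Wk hev) hG f g)

/-! #### one copy, background `0` -/

theorem gaF_even (m : V → ℝ) (v : V) (n : ℤ) :
    gaF m (fun _ => 0) v (-n) = gaF m (fun _ => 0) v n := by
  unfold gaF
  push_cast
  congr 1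
  ring

theorem one_tot (hw0 : ∀ e n, 0 ≤ w e n) (hev : ∀ e n, w e (-n) = w e n)
    (hw : ∀ e, T1.H897.LogC (w e)) (x : V → ℤ) :
    (one s t w hw0 hev hw (gaF m fun _ => 0) (gaF_nonneg m _) (gaF_even m)).tot x =
      T1.H897.Wk s t w x * H871.gs m (fun _ => 0) x := by
  unfold Sys.tot T1.H897.Wk
  rw [← prod_gaF]
  rfl

theorem one_pr (hw0 : ∀ e n, 0 ≤ w e n) (hev : ∀ e n, w e (-n) = w e n)
    (hw : ∀ e, T1.H897.LogC (w e)) (g : V → ℝ) (x : V → ℤ) :
    (one s t w hw0 hev hw (gaF m fun _ => 0) (gaF_nonneg m _) (gaF_even m)).pr g univ x =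
      ∑ v, g v * (x v : ℝ) := rfl

theorem one_tilt (hw0 : ∀ e n, 0 ≤ w e n) (hev : ∀ e n, w e (-n) = w e n)
    (hw : ∀ e, T1.H897.LogC (w e))
    (hW : H871.Wt (T1.H897.Wk s t w)) (hm : ∀ x, 0 < m x) (g : V → ℝ) :
    ∑' x, ENNReal.ofReal
      ((one s t w hw0 hev hw (gaF m fun _ => 0) (gaF_nonneg m _) (gaF_even m)).tot x *
      Real.exp ((one s t w hw0 hev hw (gaF m fun _ => 0) (gaF_nonneg m _)
        (gaF_even m)).pr g univ x)) =
    ENNReal.ofReal (∑' h : V → ℤ, T1.H897.Wk s t w h * H871.gs m (fun _ => 0) h *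
        Real.exp (∑ x, g x * (h x : ℝ))) := by
  rw [ENNReal.ofReal_tsum_of_nonneg (fun h => mul_nonneg (mul_nonneg (hW.nonneg h)
    (H871.gs_pos m _ h).le) (Real.exp_pos _).le) (tilt_summable hW hm (fun _ => 0) g)]
  refine tsum_congr fun x => ?_
  rw [one_tot, one_pr]

theorem one_ExpS (hw0 : ∀ e n, 0 ≤ w e n) (hev : ∀ e n, w e (-n) = w e n)
    (hw : ∀ e, T1.H897.LogC (w e))
    (hW : H871.Wt (T1.H897.Wk s t w)) (hm : ∀ x, 0 < m x) :
    (one s t w hw0 hev hw (gaF m fun _ => 0) (gaF_nonneg m _) (gaF_even m)).ExpS := by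
  intro g
  refine (H634.summable_of_ofReal (fun x => mul_nonneg (Sys.tot_nonneg _ x)
    (Real.exp_pos _).le) (le_of_eq (one_tilt hw0 hev hw hW hm g))).1

/-- **exponential moment, one copy**: `E e^{<g,h>} ≤ exp (∑ g²/(2m))` -/
theorem one_mgf (hw0 : ∀ e n, 0 ≤ w e n) (hev : ∀ e n, w e (-n) = w e n)
    (hw : ∀ e, T1.H897.LogC (w e))
    (hW : H871.Wt (T1.H897.Wk s t w)) (hm : ∀ x, 0 < m x)
    (hZ : ∀ f, H871.Z (T1.H897.Wk s t w) m f ≤ H871.Z (T1.H897.Wk s t w) m 0) (g : V → ℝ) :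
    ∑' x, ENNReal.ofReal
      ((one s t w hw0 hev hw (gaF m fun _ => 0) (gaF_nonneg m _) (gaF_even m)).tot x *
      Real.exp ((one s t w hw0 hev hw (gaF m fun _ => 0) (gaF_nonneg m _)
        (gaF_even m)).pr g univ x)) ≤
    ENNReal.ofReal (Real.exp (∑ x, g x ^ 2 / (2 * m x)) *
      H871.Z (T1.H897.Wk s t w) m 0) := by
  rw [one_tilt hw0 hev hw hW hm g]
  apply ENNReal.ofReal_le_ofReal
  have h := H871.tsum_tilt (W := T1.H897.Wk s t w) hm (fun _ => 0) g
  rw [h]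
  simp only [zero_mul, Finset.sum_const_zero, zero_add]
  exact mul_le_mul_of_nonneg_left (hZ _) (Real.exp_pos _).le

end inst

end Vale.Agent.P159.TM.H60
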