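import Vale.Agent.P159.TM.H634.TiltT
import Vale.Agent.P159.TM.H352.WX
import Vale.Agent.P159.TM.H352.Em

/-!
# P159, Theorem B1 (1): moments of the two-copy blocks, `Xi` from `XF`, `WF` from `W`

* `emb_two`: exponential moments of the block averages of `Spec.σ2` in any real background;
* `Xi_of_XF`: the bound of `Gas.Xi` from the bound of `Spec.XF` on the whole torus;
* `decay_gas`: H352's `Gas.decay` with the finiteness from the moments;
* `WF_of_W`: the bound of `Spec.WF` from bounds of `Gas.W`.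
-/

open Finset
open scoped ENNReal NNReal

set_option linter.unusedSectionVars false
set_option linter.unusedDecidableInType false

namespace Vale.Agent.P159.TM.H634

open Vale.Agent.P159.H353 (wI wI_nonneg wI_neg wI_anti wI_zero_pos)
open H60 H352 H131 H576
open Vale.Agent.P159.TM.H459 (tS tT bk bk_edge sd_edge blk mem_blk sd sd_symm sd_tri sd_self ball
  mem_ball sd_of_bk_eq card_ball_le)

section two

variable {N : ℕ} [NeZero N] {b : ℝ}

theorem s2_ExpS (hb : 0 ≤ b) {ξ : ℕ} (hξ : 0 < ξ) (f : ZMod N × ZMod N → ℝ) :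
    (S2 (tS (N := N)) tT (fun _ => hb) (fun _ => 1 / (ξ : ℝ) ^ 2) f).ExpS :=
  two_ExpS (fun e n => wI_nonneg hb n) (fun e => T1.H897.logC_wI hb) (wt_b tS tT fun _ => hb)
    (fun _ => by positivity) f

theorem s2_sum (hb : 0 ≤ b) {ξ : ℕ} (hξ : 0 < ξ) (f : ZMod N × ZMod N → ℝ) :
    Summable fun x => (S2 (tS (N := N)) tT (fun _ => hb) (fun _ => 1 / (ξ : ℝ) ^ 2) f).tot x := by
  have h0 := s2_ExpS hb hξ f fun _ => 0
  simp only [Sys.pr, zero_mul, Finset.sum_const_zero, Real.exp_zero, mul_one] at h0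
  exact h0

theorem s2_pos (hb : 0 ≤ b) {ξ : ℕ} (hξ : 0 < ξ) (f : ZMod N × ZMod N → ℝ) :
    0 < ∑' x, (S2 (tS (N := N)) tT (fun _ => hb) (fun _ => 1 / (ξ : ℝ) ^ 2) f).tot x := by
  have hm : ∀ v : ZMod N × ZMod N, 0 < (fun _ : ZMod N × ZMod N => 1 / (ξ : ℝ) ^ 2) v :=
    fun _ => by positivity
  rw [S2_sum_tot (fun _ => hb) hm f]
  exact pow_pos ((wt_b tS tT fun _ => hb).Z_pos hm f) 2

theorem zz_two (hb : 0 ≤ b) {ξ : ℕ} (hξ : 0 < ξ) (f : ZMod N × ZMod N → ℝ) :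
    H352.ZZ (Spec.σ2 N b ξ hb f) = ENNReal.ofReal
      (∑' x, (S2 (tS (N := N)) tT (fun _ => hb) (fun _ => 1 / (ξ : ℝ) ^ 2) f).tot x) := by
  rw [s2_eq]
  exact ZZ_eq _ (s2_sum hb hξ f)

theorem zz_two_ne_zero (hb : 0 ≤ b) {ξ : ℕ} (hξ : 0 < ξ) (f : ZMod N × ZMod N → ℝ) :
    H352.ZZ (Spec.σ2 N b ξ hb f) ≠ 0 := by
  rw [zz_two hb hξ]
  exact (ENNReal.ofReal_pos.2 (s2_pos hb hξ f)).ne'

theorem zz_two_ne_top (hb : 0 ≤ b) {ξ : ℕ} (hξ : 0 < ξ) (f : ZMod N × ZMod N → ℝ) :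
    H352.ZZ (Spec.σ2 N b ξ hb f) ≠ ⊤ := by
  rw [zz_two hb hξ]
  exact ENNReal.ofReal_ne_top

/-- **exponential moments of the block averages, two copies, any real background** -/
theorem emb_two (hb : 0 ≤ b) {ξ : ℕ} (hξ : 0 < ξ) {n l : ℕ} [NeZero n] (hl : 0 < l)
    (hN : N = n * l) (hlξ : l ≤ ξ) {ε : ℝ≥0} (hε : (ε : ℝ) = 1 / (ξ : ℝ) ^ 2) {y a : ℝ}
    (hQ : H764.QU (ξ : ℝ) (Spec.GT N b ξ) y a) (f : ZMod N × ZMod N → ℝ) :
    EMB (Spec.σ2 N b ξ hb f) n l ε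
      (ENNReal.ofReal (Real.exp (1 + (N : ℝ) ^ 2 * y / (ξ : ℝ) ^ 2))) := by
  have hξ' : (0 : ℝ) < ξ := by exact_mod_cast hξ
  have hm : ∀ v : ZMod N × ZMod N, 0 < (fun _ : ZMod N × ZMod N => 1 / (ξ : ℝ) ^ 2) v :=
    fun _ => by positivity
  have key : ∀ (c : ZMod n × ZMod n) (g : ZMod N × ZMod N → ℝ),
      (∀ v, g v ^ 2 = bf N n l (ε : ℝ) c v ^ 2) →
      ∑' x, ENNReal.ofReal ((Spec.σ2 N b ξ hb f).tot x *
        Real.exp ((Spec.σ2 N b ξ hb f).pr g univ x)) ≤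
      ENNReal.ofReal (Real.exp (1 + (N : ℝ) ^ 2 * y / (ξ : ℝ) ^ 2)) *
        H352.ZZ (Spec.σ2 N b ξ hb f) := by
    intro c g hg
    rw [zz_two hb hξ, s2_eq, S2_sum_tot (fun _ => hb) hm f,
      ← ENNReal.ofReal_mul (Real.exp_pos _).le]
    refine (two_mgf (fun e n => wI_nonneg hb n) (fun e => T1.H897.logC_wI hb)
      (wt_b tS tT fun _ => hb) hm (fun e n => wI_neg _ _) (H22.gin_Wk tS tT (fun _ => hb) hm)
      f g).trans ?_
    refine ENNReal.ofReal_le_ofReal (mul_le_mul_of_nonneg_right (Real.exp_le_exp.2 ?_)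
      (by positivity))
    have h1 := kap_T_le hb hξ' hQ.qk
    have h2 : ∑ x : ZMod N × ZMod N, g x ^ 2 / (1 / (ξ : ℝ) ^ 2) ≤ 1 := by
      have h3 : ∀ x : ZMod N × ZMod N, g x ^ 2 / (1 / (ξ : ℝ) ^ 2) =
          if bk n l x = c then 1 / (ξ : ℝ) ^ 2 else 0 := by
        intro x
        rw [hg]
        unfold bf
        split_ifs
        · rw [hε]
          field_simp
        · simp
      rw [Finset.sum_congr rfl fun x _ => h3 x, ← Finset.sum_filter, Finset.sum_const,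
        nsmul_eq_mul]
      have h4 := card_block (N := N) hl hN c
      have h5 : (((univ : Finset (ZMod N × ZMod N)).filter fun v => bk n l v = c).card : ℝ) ≤
          (ξ : ℝ) ^ 2 := by
        have h3 : l ^ 2 ≤ ξ ^ 2 := Nat.pow_le_pow_left hlξ 2
        exact_mod_cast h4.trans h3
      calc _ ≤ (ξ : ℝ) ^ 2 * (1 / (ξ : ℝ) ^ 2) :=
            mul_le_mul_of_nonneg_right h5 (by positivity)
        _ = 1 := by field_simp
    exact add_le_add h2 h1
  intro c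
  refine ⟨key c _ fun v => rfl, key c _ fun v => ?_⟩
  rw [neg_sq]

end two

section gen

variable {N n : ℕ} [NeZero N] [NeZero n] {S : Type*}
variable {σ : Sys (TV N) (TE N) S} {hs : σ.s = tS} {ht : σ.t = tT} {ε : ℝ≥0}
  {l : ℕ} {hl : 0 < l} {hN : N = n * l}

/-- sums over the blocks of a set -/
theorem sum_blk_le (T : Finset (ZMod n × ZMod n)) (F : TV N → ℝ≥0∞) :
    ∑ c ∈ T, ∑ u ∈ blk N n l c, F u ≤ ∑ u, F u := by
  classical
  have h : ∑ c ∈ T, ∑ u ∈ blk N n l c, F u = ∑ u ∈ univ.filter (fun u => bk n l u ∈ T), F u := by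
    rw [← Finset.sum_fiberwise_of_maps_to (s := univ.filter (fun u : TV N => bk n l u ∈ T))
      (t := T) (g := fun u => bk n l u) (fun u hu => (Finset.mem_filter.1 hu).2)]
    refine Finset.sum_congr rfl fun b hb => ?_
    congr 1
    ext u
    simp only [Finset.mem_filter, Finset.mem_univ, true_and, mem_blk]
    constructor
    · intro h; rw [h]; exact ⟨hb, rfl⟩
    · rintro ⟨_, h⟩; exact h
  rw [h]
  exact Finset.sum_le_sum_of_subset (Finset.filter_subset _ _)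

/-- **`Xi` from `XF` on the whole torus** -/
theorem Xi_of_XF (h0 : H352.ZZ σ ≠ 0) (h1 : H352.ZZ σ ≠ ⊤) {C : ℝ}
    (hε : (ε : ℝ) * (l : ℝ) ^ 2 = 1) (x0 : TV N)
    (hX : Spec.Ele σ (Spec.XF σ univ (ball x0 l)) (C * (l : ℝ) ^ 4)) (a : ZMod n × ZMod n)
    (R : ℕ) : (H352.gas σ hs ht ε hl hN).Xi a R (bk n l x0) ≤ ENNReal.ofReal C := by
  classical
  set β := bk n l x0 with hβ
  set A := H352.gas σ hs ht ε hl hN with hA
  have e1 : A.Xi a R β = ∑ c ∈ (torGeo n).ball a R, ∑ c' ∈ (torGeo n).ball a R,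
      H352.S A.p (fun i => H352.ind ((fun v : ZMod n × ZMod n → Prop => v β) fun c => c ∈ A.vis i) *
        (A.X i c * A.X i c')) := by
    unfold Gas.Xi
    have : ∀ i, H352.ind (β ∈ A.vis i) * A.XB a R i ^ 2 =
        ∑ c ∈ (torGeo n).ball a R, ∑ c' ∈ (torGeo n).ball a R,
          H352.ind ((fun v : ZMod n × ZMod n → Prop => v β) fun c => c ∈ A.vis i) *
            (A.X i c * A.X i c') := by
      intro i
      unfold Gas.XB
      rw [pow_two, Finset.sum_mul_sum, Finset.mul_sum]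
      exact Finset.sum_congr rfl fun c _ => by rw [Finset.mul_sum]
    rw [S_congr this, S_sum]
    exact Finset.sum_congr rfl fun c _ => S_sum _ _
  have e2 : H352.ZZ σ * A.Xi a R β = (ε : ℝ≥0∞) ^ 2 * Ex σ (fun x om =>
      ∑ c ∈ (torGeo n).ball a R, ∑ c' ∈ (torGeo n).ball a R,
        pf σ n l c c' (fun v => v β) x om) := by
    rw [e1, Finset.mul_sum, Ex_sum, Finset.mul_sum]
    refine Finset.sum_congr rfl fun c _ => ?_
    rw [Finset.mul_sum, Ex_sum, Finset.mul_sum]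
    refine Finset.sum_congr rfl fun c' _ => ?_
    exact (Ex_pf (hs := hs) (ht := ht) (hl := hl) (hN := hN) (ε := ε) (b := c) (b' := c')
      (P := fun v => v β) h0 h1).symm
  have e3 : Ex σ (fun x om => ∑ c ∈ (torGeo n).ball a R, ∑ c' ∈ (torGeo n).ball a R,
        pf σ n l c c' (fun v => v β) x om) ≤ Ex σ (Spec.XF σ univ (ball x0 l)) := by
    refine Ex_mono fun x om _ => ?_
    unfold pf Spec.XF
    have h2 : ∀ u v, ((mf σ x om u u * mf σ x om u v : ℕ) : ℝ≥0∞) *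
        H352.ind ((fun v : ZMod n × ZMod n → Prop => v β) (vs n l (mf σ x om u))) ≤
        ((mf σ x om u u * mf σ x om u v : ℕ) : ℝ≥0∞) *
        H576.ind (∃ z ∈ ball x0 l, mf σ x om u z ≠ 0) := by
      intro u v
      gcongr
      rw [← ind_eq]
      apply H352.ind_mono
      rintro ⟨z, hz, hmz⟩
      refine ⟨z, ?_, hmz⟩
      rw [mem_ball]
      have := sd_of_bk_eq (n := n) hl hN (z := x0) (w := z) (by rw [hz])
      omega
    calc _ ≤ ∑ c ∈ (torGeo n).ball a R, ∑ c' ∈ (torGeo n).ball a R,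
          ∑ u ∈ blk N n l c, ∑ v ∈ blk N n l c', ((mf σ x om u u * mf σ x om u v : ℕ) : ℝ≥0∞) *
            H576.ind (∃ z ∈ ball x0 l, mf σ x om u z ≠ 0) :=
          Finset.sum_le_sum fun c _ => Finset.sum_le_sum fun c' _ =>
            Finset.sum_le_sum fun u _ => Finset.sum_le_sum fun v _ => h2 u v
      _ = ∑ c ∈ (torGeo n).ball a R, ∑ u ∈ blk N n l c, ∑ c' ∈ (torGeo n).ball a R,
          ∑ v ∈ blk N n l c', ((mf σ x om u u * mf σ x om u v : ℕ) : ℝ≥0∞) *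
            H576.ind (∃ z ∈ ball x0 l, mf σ x om u z ≠ 0) :=
          Finset.sum_congr rfl fun c _ => Finset.sum_comm
      _ ≤ ∑ u, ∑ c' ∈ (torGeo n).ball a R,
          ∑ v ∈ blk N n l c', ((mf σ x om u u * mf σ x om u v : ℕ) : ℝ≥0∞) *
            H576.ind (∃ z ∈ ball x0 l, mf σ x om u z ≠ 0) := sum_blk_le _ _
      _ ≤ _ := Finset.sum_le_sum fun u _ => sum_blk_le _ _
  have e4 : (ε : ℝ≥0∞) ^ 2 * ENNReal.ofReal (C * (l : ℝ) ^ 4) = ENNReal.ofReal C := by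
    have h5 : (ε : ℝ≥0∞) = ENNReal.ofReal (ε : ℝ) := (ENNReal.ofReal_coe_nnreal).symm
    rw [h5, ← ENNReal.ofReal_pow (NNReal.coe_nonneg ε), ← ENNReal.ofReal_mul (by positivity)]
    congr 1
    calc (ε : ℝ) ^ 2 * (C * (l : ℝ) ^ 4) = C * ((ε : ℝ) * (l : ℝ) ^ 2) ^ 2 := by ring
      _ = C := by rw [hε]; ring
  have e5 : H352.ZZ σ * A.Xi a R β ≤ H352.ZZ σ * ENNReal.ofReal C := by
    rw [e2]
    calc _ ≤ (ε : ℝ≥0∞) ^ 2 * Ex σ (Spec.XF σ univ (ball x0 l)) := mul_le_mul' le_rfl e3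
      _ ≤ (ε : ℝ≥0∞) ^ 2 * (ENNReal.ofReal (C * (l : ℝ) ^ 4) * Ex σ fun _ _ => 1) :=
          mul_le_mul' le_rfl hX
      _ = ((ε : ℝ≥0∞) ^ 2 * ENNReal.ofReal (C * (l : ℝ) ^ 4)) * H352.ZZ σ := by
          unfold H352.ZZ; ring
      _ = _ := by rw [e4, mul_comm]
  exact (ENNReal.mul_le_mul_iff_right h0 h1).1 e5

end gen

end Vale.Agent.P159.TM.H634
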