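import Vale.Agent.P159.TM.H634.B1a

/-!
# P159, Theorem B1 (2): decay of a gas without the covariance hypothesis, `WF` from `W`
-/

open Finset
open scoped ENNReal NNReal

set_option linter.unusedSectionVars false
set_option linter.unusedDecidableInType false

namespace Vale.Agent.P159.TM.H634

open H60 H352 H131 H576
open Vale.Agent.P159.TM.H459 (tS tT bk bk_edge sd_edge blk mem_blk sd sd_symm sd_tri sd_self ball
  mem_ball sd_of_bk_eq card_ball_le)

section abs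

variable {ι 𝔹 : Type*} [Fintype 𝔹] [DecidableEq 𝔹] {G : Geo 𝔹} (A : Gas ι 𝔹 G)

theorem W_le2 {K : ℝ≥0∞} (h2 : ∀ c, H352.S A.p (fun i => A.X i c ^ 2) ≤ K) (a : 𝔹) (R : ℕ) :
    A.W a R ≤ K := by
  refine le_trans (S_mono fun i => ?_) (h2 a)
  calc H352.ind (A.J a R i) * A.X i a ^ 2 ≤ 1 * A.X i a ^ 2 := by
        gcongr; exact H352.ind_le_one _
    _ = _ := one_mul _

theorem EX_fin {K : ℝ≥0∞} (hK : K ≠ ∞) (h2 : ∀ c, H352.S A.p (fun i => A.X i c ^ 2) ≤ K)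
    (h20 : ∀ c, H352.S A.p (fun i => A.X i c ^ 20) ≤ K) (a : 𝔹) (R : ℕ) : A.EX a R ≠ ∞ := by
  have h3 : ∀ b, H352.S A.p (fun i => A.X i b ^ 3) ≤ K + K := by
    intro b
    calc H352.S A.p (fun i => A.X i b ^ 3) ≤
          H352.S A.p (fun i => A.X i b ^ 2 + A.X i b ^ 20) := S_mono fun i => pow3_le _
      _ = H352.S A.p (fun i => A.X i b ^ 2) + H352.S A.p (fun i => A.X i b ^ 20) := S_add _ _
      _ ≤ K + K := add_le_add (h2 b) (h20 b)
  apply ne_of_lt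
  calc A.EX a R ≤ H352.S A.p (fun i => ∑ b ∈ G.ball a R, (A.X i a ^ 3 + A.X i b ^ 3)) := by
        apply S_mono; intro i
        unfold Gas.wJ Gas.XB
        rw [Finset.mul_sum]
        refine Finset.sum_le_sum fun b _ => ?_
        calc H352.ind (A.J a R i) * A.X i a ^ 2 * A.X i b ≤ 1 * A.X i a ^ 2 * A.X i b := by
              gcongr; exact H352.ind_le_one _
          _ = A.X i a ^ 2 * A.X i b := by rw [one_mul]
          _ ≤ _ := by
            rcases le_total (A.X i a) (A.X i b) with h | h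
            · calc A.X i a ^ 2 * A.X i b ≤ A.X i b ^ 2 * A.X i b := by gcongr
                _ = A.X i b ^ 3 := by ring
                _ ≤ _ := le_add_self
            · calc A.X i a ^ 2 * A.X i b ≤ A.X i a ^ 2 * A.X i a := by gcongr
                _ = A.X i a ^ 3 := by ring
                _ ≤ _ := le_self_add
    _ = ∑ b ∈ G.ball a R, (H352.S A.p (fun i => A.X i a ^ 3) +
          H352.S A.p (fun i => A.X i b ^ 3)) := by
        rw [S_sum]
        exact Finset.sum_congr rfl fun b _ => S_add _ _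
    _ ≤ ∑ b ∈ G.ball a R, ((K + K) + (K + K)) := by
        refine Finset.sum_le_sum fun b _ => add_le_add (h3 a) (h3 b)
    _ < ∞ := by
        rw [ENNReal.sum_lt_top]
        intro b _
        have : K < ∞ := lt_top_iff_ne_top.2 hK
        simp [this]

/-- the rate -/
noncomputable def rt (K : ℝ≥0) (D : ℕ) (M : ℝ) : ℝ :=
  1 / (8 * (K : ℝ) ^ 3 * (2 * (D : ℝ) + 1) ^ 4 * (16 * (D : ℝ) + 7) * M)

theorem rt_pos {K : ℝ≥0} (hK : 1 ≤ K) (D : ℕ) {M : ℝ} (hM : 1 ≤ M) : 0 < rt K D M := by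
  have hK' : (0 : ℝ) < K := by exact_mod_cast (zero_lt_one.trans_le hK)
  unfold rt
  positivity

/-- **decay at every radius** -/
theorem W_decay {K : ℝ≥0} (hK : 1 ≤ K) {D : ℕ} {y M : ℝ} (hM : 1 ≤ M)
    (h2 : ∀ c, H352.S A.p (fun i => A.X i c ^ 2) ≤ K)
    (h20 : ∀ c, H352.S A.p (fun i => A.X i c ^ 20) ≤ K)
    (hfat : ∀ a R β, 2 * D ≤ R → H352.S A.p (fun i => A.wJ a R i * H352.ind (β ∈ A.vis i)) ≤
      K * H352.S A.p (fun i => A.wJ a R i * H352.ind (β ∈ A.vis i) * A.XB β D i))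
    (htilt : ∀ (a : 𝔹) (R : ℕ), A.Tilt K y a R M) {R : ℕ} (hyR : y * ((R : ℝ) + 1) ≤ 1)
    (a : 𝔹) :
    A.W a R ≤ ENNReal.ofReal (K * Real.exp (rt K D M * (2 * D)) *
      Real.exp (-(rt K D M * ((R : ℝ) + 1)))) := by
  have hr := (rt_pos hK D hM).le
  have hWt : A.W a R ≠ ∞ := ne_top_of_le_ne_top ENNReal.coe_ne_top (W_le2 A h2 a R)
  have hK0 : (0 : ℝ) ≤ K := NNReal.coe_nonneg K
  by_cases hR : 2 * D ≤ R
  · rw [← ENNReal.ofReal_toReal hWt]
    apply ENNReal.ofReal_le_ofReal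
    refine (A.decay hK hR a hWt (EX_fin A ENNReal.coe_ne_top h2 h20 a R)
      (fun β _ => hfat a R β hR) hM hyR (htilt a R)).trans ?_
    have h1 : (1 : ℝ) ≤ Real.exp (rt K D M * (2 * D)) := Real.one_le_exp (by positivity)
    have e1 : -((R : ℝ) + 1) / (8 * (K : ℝ) ^ 3 * (2 * (D : ℝ) + 1) ^ 4 * (16 * (D : ℝ) + 7) * M) =
        -(rt K D M * ((R : ℝ) + 1)) := by
      unfold rt
      ring
    rw [e1]
    have h3 := (Real.exp_pos (-(rt K D M * ((R : ℝ) + 1)))).le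
    have h4 : (K : ℝ) * 1 ≤ K * Real.exp (rt K D M * (2 * D)) := by gcongr
    nlinarith
  · refine (W_le2 A h2 a R).trans ?_
    rw [← ENNReal.ofReal_coe_nnreal]
    apply ENNReal.ofReal_le_ofReal
    rw [mul_assoc, ← Real.exp_add]
    have h1 : 0 ≤ rt K D M * (2 * D) + -(rt K D M * ((R : ℝ) + 1)) := by
      have : (R : ℝ) + 1 ≤ 2 * D := by
        push Not at hR
        have : R + 1 ≤ 2 * D := hR
        exact_mod_cast this
      have := mul_le_mul_of_nonneg_left this hr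
      linarith
    have h3 := Real.one_le_exp h1
    nlinarith

end abs

section wf

variable {N n : ℕ} [NeZero N] [NeZero n] {S : Type*}
variable {σ : Sys (TV N) (TE N) S} {hs : σ.s = tS} {ht : σ.t = tT} {ε : ℝ≥0}
  {l : ℕ} {hl : 0 < l} {hN : N = n * l}

/-- **`WF` from bounds of `W`** -/
theorem WF_of_W (hε : (ε : ℝ) * (l : ℝ) ^ 2 = 1) (h0 : H352.ZZ σ ≠ 0) (h1 : H352.ZZ σ ≠ ∞)
    (x0 : TV N) (m : ℕ) {w : ℝ} (hw0 : 0 ≤ w)
    (hW : ∀ c, (H352.gas σ hs ht ε hl hN).W c (m / l - 3) ≤ ENNReal.ofReal w) :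
    Spec.Ele σ (Spec.WF σ (ball x0 l) (ball x0 m)) (162 * (l : ℝ) ^ 4 * w) := by
  classical
  unfold Spec.Ele
  have hpair : ∀ b ∈ ball (bk n l x0) 1, ∀ b' ∈ ball (bk n l x0) 1,
      Ex σ (pf σ n l b b' (fun v => v b ∧ ∃ c, v c ∧ m / l - 1 ≤ sd b c)) ≤
        (l : ℝ≥0∞) ^ 4 * (H352.ZZ σ * (ENNReal.ofReal w + ENNReal.ofReal w)) := by
    intro b hb b' hb'
    rw [scale_back hε (Ex_pf (hs := hs) (ht := ht) (hl := hl) (hN := hN) h0 h1)]
    gcongr
    rw [mem_ball] at hb hb'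
    have h2 : (torGeo n).d b b' ≤ 2 := by
      have h3 := sd_tri b (bk n l x0) b'
      have h4 := sd_symm b (bk n l x0)
      show sd b b' ≤ 2
      omega
    have h3 := Gas.pair_le (A := H352.gas σ hs ht ε hl hN) h2 (m / l - 1)
    have h4 : m / l - 1 - 2 = m / l - 3 := by omega
    rw [h4] at h3
    exact h3.trans (add_le_add (hW b) (hW b'))
  calc Ex σ (Spec.WF σ (ball x0 l) (ball x0 m))
      ≤ Ex σ (fun x om => ∑ b ∈ ball (bk n l x0) 1, ∑ b' ∈ ball (bk n l x0) 1,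
        pf σ n l b b' (fun v => v b ∧ ∃ c, v c ∧ m / l - 1 ≤ sd b c) x om) :=
        Ex_mono fun x om _ => WF_le hl hN x0 m x om
    _ = ∑ b ∈ ball (bk n l x0) 1, ∑ b' ∈ ball (bk n l x0) 1,
        Ex σ (pf σ n l b b' (fun v => v b ∧ ∃ c, v c ∧ m / l - 1 ≤ sd b c)) := by
        rw [Ex_sum]
        refine Finset.sum_congr rfl fun b _ => ?_
        rw [Ex_sum]
    _ ≤ ∑ b ∈ ball (bk n l x0) 1, ∑ b' ∈ ball (bk n l x0) 1,
        (l : ℝ≥0∞) ^ 4 * (H352.ZZ σ * (ENNReal.ofReal w + ENNReal.ofReal w)) :=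
        Finset.sum_le_sum fun b hb => Finset.sum_le_sum fun b' hb' => hpair b hb b' hb'
    _ = ((ball (bk n l x0) 1).card : ℝ≥0∞) ^ 2 *
        ((l : ℝ≥0∞) ^ 4 * (H352.ZZ σ * (ENNReal.ofReal w + ENNReal.ofReal w))) := by
        rw [Finset.sum_const, Finset.sum_const, nsmul_eq_mul, nsmul_eq_mul]; ring
    _ ≤ (9 : ℝ≥0∞) ^ 2 * ((l : ℝ≥0∞) ^ 4 * (H352.ZZ σ *
          (ENNReal.ofReal w + ENNReal.ofReal w))) := by
        gcongr
        have := card_ball_le (bk n l x0) 1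
        have h9 : (ball (bk n l x0) 1).card ≤ 9 := by simpa using this
        exact_mod_cast h9
    _ = ENNReal.ofReal (162 * (l : ℝ) ^ 4 * w) * Ex σ (fun _ _ => 1) := by
        have e1 : 162 * (l : ℝ) ^ 4 * w = 9 ^ 2 * (l : ℝ) ^ 4 * (w + w) := by ring
        rw [e1, ofReal_w hw0]
        unfold H352.ZZ
        ring

end wf

end Vale.Agent.P159.TM.H634
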