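import Mathlib

/-!
Row E6 of T1 (P159): Jensen's inequality for a weighted sum which is controlled in `[0, ∞]`.
-/

open scoped ENNReal BigOperators

namespace Vale.Agent.P159.TM.H634

/-- a sum of nonnegative reals which is finite in `[0, ∞]` is summable -/
theorem summable_of_ofReal {ι : Type*} {f : ι → ℝ} (hf : ∀ i, 0 ≤ f i) {B : ℝ}
    (h : ∑' i, ENNReal.ofReal (f i) ≤ ENNReal.ofReal B) :
    Summable f ∧ ENNReal.ofReal (∑' i, f i) = ∑' i, ENNReal.ofReal (f i) := by
  have h1 : ∑' i, ENNReal.ofReal (f i) ≠ ∞ := (h.trans_lt ENNReal.ofReal_lt_top).ne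
  have h2 : Summable f := by
    have h3 := ENNReal.summable_toReal h1
    refine h3.congr fun i => ?_
    rw [ENNReal.toReal_ofReal (hf i)]
  exact ⟨h2, ENNReal.ofReal_tsum_of_nonneg hf h2⟩

/-- **Jensen** with a bound in `[0, ∞]` -/
theorem jensen {ι : Type*} {q L : ι → ℝ} (hq : ∀ i, 0 ≤ q i) {B c0 : ℝ} (hB0 : 0 ≤ B)
    (hc : ∀ i, -c0 ≤ L i)
    (h : ∑' i, ENNReal.ofReal (q i * Real.exp (L i)) ≤ ENNReal.ofReal B) :
    Summable q ∧ Summable (fun i => q i * L i) ∧
      ∀ m : ℝ, m * (∑' i, q i) ≤ ∑' i, q i * L i → (∑' i, q i) * Real.exp m ≤ B := by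
  have h0 : ∀ i, 0 ≤ q i * Real.exp (L i) := fun i => mul_nonneg (hq i) (Real.exp_pos _).le
  obtain ⟨hs, he⟩ := summable_of_ofReal h0 h
  have hle : ∑' i, q i * Real.exp (L i) ≤ B := by
    rw [← he] at h
    exact (ENNReal.ofReal_le_ofReal_iff hB0).1 h
  have hsq : Summable q := by
    refine Summable.of_nonneg_of_le hq (fun i => ?_) (hs.mul_left (Real.exp c0))
    have h1 : Real.exp (-c0) ≤ Real.exp (L i) := Real.exp_le_exp.2 (hc i)
    have h2 : Real.exp c0 * Real.exp (-c0) = 1 := by rw [← Real.exp_add]; simp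
    calc q i = q i * (Real.exp c0 * Real.exp (-c0)) := by rw [h2, mul_one]
      _ ≤ q i * (Real.exp c0 * Real.exp (L i)) :=
        mul_le_mul_of_nonneg_left (mul_le_mul_of_nonneg_left h1 (Real.exp_pos _).le) (hq i)
      _ = Real.exp c0 * (q i * Real.exp (L i)) := by ring
  have hsL : Summable fun i => q i * L i := by
    refine Summable.of_abs ?_
    refine Summable.of_nonneg_of_le (fun i => abs_nonneg _) (fun i => ?_)
      (hs.add (hsq.mul_left |c0|))
    rw [abs_mul, abs_of_nonneg (hq i)]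
    have h1 : |L i| ≤ Real.exp (L i) + |c0| := by
      rw [abs_le]
      constructor
      · have := hc i
        have := Real.exp_pos (L i)
        have := le_abs_self c0
        linarith
      · have := Real.add_one_le_exp (L i)
        have := abs_nonneg c0
        linarith
    calc q i * |L i| ≤ q i * (Real.exp (L i) + |c0|) := mul_le_mul_of_nonneg_left h1 (hq i)
      _ = q i * Real.exp (L i) + |c0| * q i := by ring
  refine ⟨hsq, hsL, fun m hm => ?_⟩
  refine le_trans ?_ hle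
  have h1 : ∀ i, Real.exp m * (q i * L i) + Real.exp m * (1 - m) * q i ≤
      q i * Real.exp (L i) := by
    intro i
    have h2 : Real.exp m * (1 + (L i - m)) ≤ Real.exp (L i) := by
      have h3 := Real.add_one_le_exp (L i - m)
      calc Real.exp m * (1 + (L i - m)) ≤ Real.exp m * Real.exp (L i - m) :=
            mul_le_mul_of_nonneg_left (by linarith) (Real.exp_pos _).le
        _ = Real.exp (L i) := by rw [← Real.exp_add]; congr 1; ring
    have h4 := mul_le_mul_of_nonneg_left h2 (hq i)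
    nlinarith [h4]
  have h2 := Summable.tsum_le_tsum h1
    ((hsL.mul_left (Real.exp m)).add (hsq.mul_left (Real.exp m * (1 - m)))) hs
  rw [Summable.tsum_add (hsL.mul_left (Real.exp m)) (hsq.mul_left (Real.exp m * (1 - m))),
    tsum_mul_left, tsum_mul_left] at h2
  have h3 := mul_le_mul_of_nonneg_left hm (Real.exp_pos m).le
  nlinarith [h2, h3]

/-- Jensen, normalised form -/
theorem jensen_div {ι : Type*} {q L : ι → ℝ} (hq : ∀ i, 0 ≤ q i) {B c0 : ℝ} (hB0 : 0 ≤ B)
    (hc : ∀ i, -c0 ≤ L i)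
    (h : ∑' i, ENNReal.ofReal (q i * Real.exp (L i)) ≤ ENNReal.ofReal B)
    (hW : 0 < ∑' i, q i) :
    (∑' i, q i) * Real.exp ((∑' i, q i * L i) / ∑' i, q i) ≤ B := by
  refine (jensen hq hB0 hc h).2.2 _ ?_
  rw [div_mul_cancel₀ _ hW.ne']

/-- `x² ≤ 2 s⁻² cosh (s x)` -/
theorem sq_le_cosh {s x : ℝ} (hs : 0 < s) :
    x ^ 2 ≤ 2 * (s ^ 2)⁻¹ * Real.cosh (s * x) := by
  have h1 : 1 + (s * x) ^ 2 / 2 ≤ Real.cosh (s * x) := by
    have h := sum_le_hasSum (Finset.range 2) (fun n _ => by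
      rw [pow_mul]; positivity) (Real.hasSum_cosh (s * x))
    simpa [Finset.sum_range_succ] using h
  have h2 : 0 < s ^ 2 := by positivity
  rw [mul_comm 2, mul_assoc, ← div_eq_inv_mul, le_div_iff₀ h2]
  nlinarith [h1]

end Vale.Agent.P159.TM.H634
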