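import Vale.Agent.P159.TM.H60.Rest
import Vale.Agent.P159.TM.H634.Jen

/-!
# P159, row E6: the tilt inequality

Letters of `TM/H60`: `σ : Sys V E S`, `σ.wt om x` the weight of the configuration `x` with the set
`om` of open edges, `D x v` the odd observable, `pa τ A x = ∑ v ∈ A, τ v |D x v|`,
`pr τ A x = ∑ v ∈ A, τ v D x v`.

`e6`: if the rest of a cluster gains `exp (c A)` from the tilt (E2) and the tilted second moment of
`∑ v, β v D x v` is at most `B` (E1), then for the size biased law `Q` of the cluster,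
`W exp (E_Q [<τ, |d|>_C + c C]) ≤ 2 B`, where `W` is the total mass of the size biased law.
-/

open Finset
open scoped ENNReal

set_option linter.unusedSectionVars false
set_option linter.unusedDecidableInType false

namespace Vale.Agent.P159.TM.H60

namespace Sys

variable {V E S : Type*} [Fintype V] [DecidableEq V] [Fintype E] [DecidableEq E] (σ : Sys V E S)

/-- the size bias of the cluster `A` seen from `u` -/
def e6a (β : V → ℝ) (u : V) (A : Finset V) (x : V → S) : ℝ :=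
  β u * |σ.D x u| * ∑ v ∈ A, β v * |σ.D x v|

open Classical in
/-- the size biased weight of `(om, x, u)` -/
noncomputable def e6q (β : V → ℝ) (Φ : Finset V → Prop) (i : Finset E × (V → S) × V) : ℝ :=
  σ.wt i.1 i.2.1 * (σ.e6a β i.2.2 (clus σ.s σ.t i.1 i.2.2) i.2.1 *
    (if Φ (clus σ.s σ.t i.1 i.2.2) then 1 else 0))

/-- the exponent gained by the tilt -/
noncomputable def e6L (τ : V → ℝ) (c : Finset V → ℝ) (i : Finset E × (V → S) × V) : ℝ :=
  σ.pa τ (clus σ.s σ.t i.1 i.2.2) i.2.1 + c (clus σ.s σ.t i.1 i.2.2)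

theorem e6a_nonneg {β : V → ℝ} (hβ : ∀ v, 0 ≤ β v) (u : V) (A : Finset V) (x : V → S) :
    0 ≤ σ.e6a β u A x :=
  mul_nonneg (mul_nonneg (hβ u) (abs_nonneg _))
    (Finset.sum_nonneg fun v _ => mul_nonneg (hβ v) (abs_nonneg _))

theorem e6q_nonneg {β : V → ℝ} (hβ : ∀ v, 0 ≤ β v) (Φ : Finset V → Prop)
    (i : Finset E × (V → S) × V) : 0 ≤ σ.e6q β Φ i := by
  unfold e6q
  refine mul_nonneg (σ.wt_nonneg _ _) (mul_nonneg (σ.e6a_nonneg hβ _ _ _) ?_)
  split_ifs <;> norm_num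

theorem e6L_ge {τ : V → ℝ} (hτ : ∀ v, 0 ≤ τ v) (c : Finset V → ℝ)
    (i : Finset E × (V → S) × V) : -(∑ A : Finset V, |c A|) ≤ σ.e6L τ c i := by
  unfold e6L
  have h1 := σ.pa_nonneg hτ (clus σ.s σ.t i.1 i.2.2) i.2.1
  have h2 := neg_abs_le (c (clus σ.s σ.t i.1 i.2.2))
  have h3 : |c (clus σ.s σ.t i.1 i.2.2)| ≤ ∑ A : Finset V, |c A| :=
    Finset.single_le_sum (f := fun A => |c A|) (fun A _ => abs_nonneg _) (Finset.mem_univ _)
  linarith

theorem D_congr {x x' : V → S} {v : V} (h : x v = x' v) : σ.D x v = σ.D x' v := by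
  unfold D; rw [h]

theorem pa_congr {τ : V → ℝ} {A : Finset V} {x x' : V → S} (h : ∀ v ∈ A, x v = x' v) :
    σ.pa τ A x = σ.pa τ A x' := by
  unfold pa
  exact Finset.sum_congr rfl fun v hv => by rw [σ.D_congr (h v hv)]

theorem e6a_congr {β : V → ℝ} {u : V} {A : Finset V} (hu : u ∈ A) {x x' : V → S}
    (h : ∀ v ∈ A, x v = x' v) : σ.e6a β u A x = σ.e6a β u A x' := by
  unfold e6a
  rw [σ.D_congr (h u hu), Finset.sum_congr rfl fun v hv => by rw [σ.D_congr (h v hv)]]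

/-- the sum over `(om, x, u)` in `[0, ∞]` -/
theorem tsum_three (F : Finset E → (V → S) → V → ℝ≥0∞) :
    ∑' i : Finset E × (V → S) × V, F i.1 i.2.1 i.2.2
      = ∑ u, ∑ om : Finset E, ∑' x, F om x u := by
  rw [ENNReal.tsum_prod (f := fun om (p : (V → S) × V) => F om p.1 p.2), tsum_fintype,
    Finset.sum_comm]
  refine Finset.sum_congr rfl fun om _ => ?_
  rw [ENNReal.tsum_prod (f := fun x u => F om x u), ENNReal.tsum_comm, tsum_fintype]

open Classical in
/-- **the tilt inequality in `[0, ∞]`** -/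
theorem e6_enn {β τ : V → ℝ} (hβ : ∀ v, 0 ≤ β v) (hτ : ∀ v, 0 ≤ τ v)
    (Φ : Finset V → Prop) (c : Finset V → ℝ) {B : ℝ}
    (hS : ∀ u v, Summable fun x => σ.tot x * |σ.F2 τ u v x|)
    (RB : ∀ A x, Φ A → (∀ v ∈ A, σ.d (x v) ≠ 0) →
      σ.restZ A x (fun _ => ENNReal.ofReal (Real.exp (c A))) ≤
        σ.restZ A x (fun z => ENNReal.ofReal (Real.exp (σ.pr τ Aᶜ z))))
    (UB : ∑' x, ENNReal.ofReal (σ.tot x * ((∑ u, β u * σ.D x u) ^ 2 *
      Real.exp (σ.pr τ univ x))) ≤ ENNReal.ofReal B) :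
    ∑' i, ENNReal.ofReal (σ.e6q β Φ i * Real.exp (σ.e6L τ c i)) ≤ ENNReal.ofReal (2 * B) := by
  -- the function of the cluster
  set a : V → Finset V → (V → S) → ℝ≥0∞ := fun u A x => if u ∈ A then
    ENNReal.ofReal (σ.e6a β u A x * (if Φ A then 1 else 0) * Real.exp (σ.pa τ A x)) else 0 with ha
  set f1 : Finset V → (V → S) → ℝ≥0∞ := fun A _ => ENNReal.ofReal (Real.exp (c A)) with hf1
  set f2 : Finset V → (V → S) → ℝ≥0∞ :=
    fun A z => ENNReal.ofReal (Real.exp (σ.pr τ Aᶜ z)) with hf2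
  have hind : ∀ A : Finset V, (0 : ℝ) ≤ if Φ A then 1 else 0 := by
    intro A; split_ifs <;> norm_num
  -- left hand side
  have e1 : ∑' i, ENNReal.ofReal (σ.e6q β Φ i * Real.exp (σ.e6L τ c i))
      = ∑ u, ∑ om : Finset E, ∑' x, ENNReal.ofReal (σ.wt om x) *
        (a u (clus σ.s σ.t om u) x * f1 (clus σ.s σ.t om u) x) := by
    rw [← tsum_three (fun om x u => ENNReal.ofReal (σ.wt om x) *
        (a u (clus σ.s σ.t om u) x * f1 (clus σ.s σ.t om u) x))]
    refine tsum_congr fun i => ?_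
    simp only [ha, hf1]
    rw [if_pos (self_mem_clus _)]
    rw [← ENNReal.ofReal_mul (mul_nonneg (mul_nonneg (σ.e6a_nonneg hβ _ _ _) (hind _))
      (Real.exp_pos _).le), ← ENNReal.ofReal_mul (σ.wt_nonneg _ _)]
    congr 1
    unfold e6q e6L
    rw [Real.exp_add]
    ring
  rw [e1]
  -- rest of the cluster
  have e2 : ∀ u, ∑ om : Finset E, ∑' x, ENNReal.ofReal (σ.wt om x) *
        (a u (clus σ.s σ.t om u) x * f1 (clus σ.s σ.t om u) x)
      ≤ ∑ om : Finset E, ∑' x, ENNReal.ofReal (σ.wt om x) *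
        (a u (clus σ.s σ.t om u) x * f2 (clus σ.s σ.t om u) x) := by
    intro u
    refine σ.rest_le_one u ?_ ?_
    · intro A x x' h
      simp only [ha]
      by_cases hu : u ∈ A
      · rw [if_pos hu, if_pos hu, σ.e6a_congr hu h, σ.pa_congr h]
      · rw [if_neg hu, if_neg hu]
    · intro A x hu h1 h2
      simp only [ha, if_pos hu] at h1
      have hΦ : Φ A := by
        by_contra hΦ
        rw [if_neg hΦ] at h1
        simp at h1
      have hd : σ.d (x u) ≠ 0 := by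
        intro h0
        apply h1
        have : σ.D x u = 0 := by unfold D; rw [h0]; simp
        unfold e6a
        rw [this]
        simp
      exact RB A x hΦ (σ.insw_d_ne h2 hd)
  refine (Finset.sum_le_sum fun u _ => e2 u).trans ?_
  -- fair signs
  have e3 : ∀ (om : Finset E) (u : V) (x : V → S),
      ENNReal.ofReal (σ.wt om x) *
        (a u (clus σ.s σ.t om u) x * f2 (clus σ.s σ.t om u) x)
      ≤ 2 * (ENNReal.ofReal (σ.wt om x)
        * (ENNReal.ofReal ((β u * |σ.D x u| * ∑ v ∈ clus σ.s σ.t om u, β v * |σ.D x v|)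
            * (if Φ (clus σ.s σ.t om u) then 1 else 0)
            * Real.cosh (σ.pa τ (clus σ.s σ.t om u) x))
          * ENNReal.ofReal (Real.exp (σ.pr τ (clus σ.s σ.t om u)ᶜ x)))) := by
    intro om u x
    simp only [ha, hf2]
    rw [if_pos (self_mem_clus _)]
    have h1 : ENNReal.ofReal (σ.e6a β u (clus σ.s σ.t om u) x *
        (if Φ (clus σ.s σ.t om u) then 1 else 0) * Real.exp (σ.pa τ (clus σ.s σ.t om u) x))
        ≤ 2 * ENNReal.ofReal ((β u * |σ.D x u| * ∑ v ∈ clus σ.s σ.t om u, β v * |σ.D x v|)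
            * (if Φ (clus σ.s σ.t om u) then 1 else 0)
            * Real.cosh (σ.pa τ (clus σ.s σ.t om u) x)) := by
      have h2 : (2 : ℝ≥0∞) = ENNReal.ofReal 2 := by simp
      rw [h2, ← ENNReal.ofReal_mul (by norm_num)]
      apply ENNReal.ofReal_le_ofReal
      have h3 : Real.exp (σ.pa τ (clus σ.s σ.t om u) x)
          ≤ 2 * Real.cosh (σ.pa τ (clus σ.s σ.t om u) x) := by
        rw [Real.cosh_eq]
        have := Real.exp_pos (-(σ.pa τ (clus σ.s σ.t om u) x))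
        linarith
      have h4 := mul_le_mul_of_nonneg_left h3
        (mul_nonneg (σ.e6a_nonneg hβ u (clus σ.s σ.t om u) x) (hind (clus σ.s σ.t om u)))
      calc σ.e6a β u (clus σ.s σ.t om u) x *
        (if Φ (clus σ.s σ.t om u) then 1 else 0) * Real.exp (σ.pa τ (clus σ.s σ.t om u) x)
          ≤ σ.e6a β u (clus σ.s σ.t om u) x *
        (if Φ (clus σ.s σ.t om u) then 1 else 0) *
          (2 * Real.cosh (σ.pa τ (clus σ.s σ.t om u) x)) := h4
        _ = _ := by unfold e6a; ring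
    calc ENNReal.ofReal (σ.wt om x) * (ENNReal.ofReal (σ.e6a β u (clus σ.s σ.t om u) x *
          (if Φ (clus σ.s σ.t om u) then 1 else 0) * Real.exp (σ.pa τ (clus σ.s σ.t om u) x)) *
          ENNReal.ofReal (Real.exp (σ.pr τ (clus σ.s σ.t om u)ᶜ x)))
        ≤ ENNReal.ofReal (σ.wt om x) * ((2 * ENNReal.ofReal ((β u * |σ.D x u| *
            ∑ v ∈ clus σ.s σ.t om u, β v * |σ.D x v|)
            * (if Φ (clus σ.s σ.t om u) then 1 else 0)
            * Real.cosh (σ.pa τ (clus σ.s σ.t om u) x))) *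
          ENNReal.ofReal (Real.exp (σ.pr τ (clus σ.s σ.t om u)ᶜ x))) := by gcongr
      _ = _ := by ring
  have e4 : ∑ u, ∑ om : Finset E, ∑' x, ENNReal.ofReal (σ.wt om x) *
        (a u (clus σ.s σ.t om u) x * f2 (clus σ.s σ.t om u) x)
      ≤ 2 * ∑ om : Finset E, ∑ u, ∑' x, (ENNReal.ofReal (σ.wt om x)
        * (ENNReal.ofReal ((β u * |σ.D x u| * ∑ v ∈ clus σ.s σ.t om u, β v * |σ.D x v|)
            * (if Φ (clus σ.s σ.t om u) then 1 else 0)
            * Real.cosh (σ.pa τ (clus σ.s σ.t om u) x))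
          * ENNReal.ofReal (Real.exp (σ.pr τ (clus σ.s σ.t om u)ᶜ x)))) := by
    rw [Finset.sum_comm, Finset.mul_sum]
    refine Finset.sum_le_sum fun om _ => ?_
    rw [Finset.mul_sum]
    refine Finset.sum_le_sum fun u _ => ?_
    rw [← ENNReal.tsum_mul_left]
    exact ENNReal.tsum_le_tsum fun x => e3 om u x
  refine e4.trans ?_
  have e5 := (σ.swap_enn hβ hτ Φ hS).trans UB
  calc _ ≤ 2 * ENNReal.ofReal B := by
        refine mul_le_mul' le_rfl ?_
        exact e5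
    _ = ENNReal.ofReal (2 * B) := by
        rw [ENNReal.ofReal_mul (by norm_num)]
        simp

/-- **the tilt inequality**, every `m` below the mean of the exponent -/
theorem e6 {β τ : V → ℝ} (hβ : ∀ v, 0 ≤ β v) (hτ : ∀ v, 0 ≤ τ v)
    (Φ : Finset V → Prop) (c : Finset V → ℝ) {B : ℝ} (hB : 0 ≤ B)
    (hS : ∀ u v, Summable fun x => σ.tot x * |σ.F2 τ u v x|)
    (RB : ∀ A x, Φ A → (∀ v ∈ A, σ.d (x v) ≠ 0) →
      σ.restZ A x (fun _ => ENNReal.ofReal (Real.exp (c A))) ≤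
        σ.restZ A x (fun z => ENNReal.ofReal (Real.exp (σ.pr τ Aᶜ z))))
    (UB : ∑' x, ENNReal.ofReal (σ.tot x * ((∑ u, β u * σ.D x u) ^ 2 *
      Real.exp (σ.pr τ univ x))) ≤ ENNReal.ofReal B) :
    Summable (σ.e6q β Φ) ∧ Summable (fun i => σ.e6q β Φ i * σ.e6L τ c i) ∧
      (∀ m : ℝ, m * ∑' i, σ.e6q β Φ i ≤ ∑' i, σ.e6q β Φ i * σ.e6L τ c i →
        (∑' i, σ.e6q β Φ i) * Real.exp m ≤ 2 * B) ∧
      (0 < ∑' i, σ.e6q β Φ i → (∑' i, σ.e6q β Φ i) *
        Real.exp ((∑' i, σ.e6q β Φ i * σ.e6L τ c i) / ∑' i, σ.e6q β Φ i) ≤ 2 * B) := by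
  have h1 := σ.e6_enn hβ hτ Φ c hS RB UB
  have h2B : 0 ≤ 2 * B := by linarith
  have hq := σ.e6q_nonneg hβ Φ
  have hL := σ.e6L_ge hτ c
  obtain ⟨h2, h3, h4⟩ := H634.jensen hq h2B hL h1
  exact ⟨h2, h3, h4, fun hW => H634.jensen_div hq h2B hL h1 hW⟩

end Sys

end Vale.Agent.P159.TM.H60
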