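import Vale.Agent.P159.TM.H634.E6b
import Vale.Agent.P159.TM.H352.Decay

/-!
# P159, row TILT (1): the gas of clusters of an FK system

`gas σ G bk ε hadj` is the gas (letters of `TM/H352/Decay.lean`) of the clusters of an FK system
`σ : Sys V E S` (`TM/H60`), with block map `bk : V → 𝔹`: an index is `(om, x, C)`, the weight is
`wt om x / ∑ tot` when `C` is a cluster of `om`, the mass of the block `b` is
`ε * ∑ z ∈ C, bk z = b, |D x z|`.

`tsum_e6q`: the size biased sums of `TM/H634/E6.lean` are the sums `S p (wJ a R * F)` of the gas.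
-/

open Finset
open scoped ENNReal

set_option linter.unusedSectionVars false
set_option linter.unusedDecidableInType false

namespace Vale.Agent.P159.TM.H634

open H60 H352

variable {V E S 𝔹 : Type*} [Fintype V] [DecidableEq V] [Fintype E] [DecidableEq E]
  [Fintype 𝔹] [DecidableEq 𝔹]

/-- `C` is an open cluster -/
def IsC (s t : E → V) (om : Finset E) (C : Finset V) : Prop := ∃ u, clus s t om u = C

open Classical in
/-- the cluster, empty when `C` is not a cluster -/
noncomputable def cC (s t : E → V) (om : Finset E) (C : Finset V) : Finset V :=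
  if IsC s t om C then C else ∅

theorem isC_clus {s t : E → V} (om : Finset E) (u : V) : IsC s t om (clus s t om u) := ⟨u, rfl⟩

theorem cC_of {s t : E → V} {om : Finset E} {C : Finset V} (h : IsC s t om C) :
    cC s t om C = C := if_pos h

/-- along an open cluster the block distance takes all intermediate values -/
theorem conn_blocks {s t : E → V} (G : Geo 𝔹) {bk : V → 𝔹}
    (hadj : ∀ e, G.d (bk (s e)) (bk (t e)) ≤ 1) {om : Finset E} {p q : V}
    (h : Conn s t om p q) (b : 𝔹) {k : ℕ} (hp : G.d b (bk p) ≤ k) (hq : k ≤ G.d b (bk q)) :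
    ∃ z, Conn s t om p z ∧ G.d b (bk z) = k := by
  unfold Conn at h
  induction h with
  | refl => exact ⟨p, Relation.ReflTransGen.refl, le_antisymm hp hq⟩
  | @tail y z h1 h2 ih =>
    rcases Nat.lt_or_ge (G.d b (bk y)) k with h3 | h3
    · refine ⟨z, Relation.ReflTransGen.tail h1 h2, ?_⟩
      have h4 := G.d_tri b (bk y) (bk z)
      have h5 : G.d (bk y) (bk z) ≤ 1 := by
        obtain ⟨e, -, h6⟩ := h2
        rcases h6 with ⟨h7, h8⟩ | ⟨h7, h8⟩
        · rw [← h7, ← h8]; exact hadj e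
        · rw [← h7, ← h8, G.d_comm]; exact hadj e
      omega
    · exact ih h3

open Classical in
/-- the gas of the clusters of an FK system -/
noncomputable def gas (σ : Sys V E S) (G : Geo 𝔹) (bk : V → 𝔹) (ε : ℝ)
    (hadj : ∀ e, G.d (bk (σ.s e)) (bk (σ.t e)) ≤ 1) :
    Gas (Finset E × (V → S) × Finset V) 𝔹 G where
  p i := if IsC σ.s σ.t i.1 i.2.2 then ENNReal.ofReal (σ.wt i.1 i.2.1 / ∑' x, σ.tot x) else 0
  X i b := ENNReal.ofReal (ε * ∑ z ∈ (cC σ.s σ.t i.1 i.2.2).filter (fun z => bk z = b),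
    |σ.D i.2.1 z|)
  vis i := (cC σ.s σ.t i.1 i.2.2).image bk
  X_vis i b hb := by
    have h : (cC σ.s σ.t i.1 i.2.2).filter (fun z => bk z = b) = ∅ := by
      rw [Finset.filter_eq_empty_iff]
      intro z hz h
      exact hb (Finset.mem_image.2 ⟨z, hz, h⟩)
    rw [h]
    simp
  conn i a b ha hb j hj := by
    obtain ⟨om, x, C⟩ := i
    simp only at ha hb ⊢
    by_cases hC : IsC σ.s σ.t om C
    · rw [cC_of hC] at ha hb ⊢
      obtain ⟨u, rfl⟩ := hC
      rw [Finset.mem_image] at ha hb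
      obtain ⟨p, hp, rfl⟩ := ha
      obtain ⟨q, hq, rfl⟩ := hb
      have hpq : Conn σ.s σ.t om p q := (mem_clus.1 hp).symm.trans (mem_clus.1 hq)
      obtain ⟨z, hz, hzj⟩ := conn_blocks G hadj hpq (bk p) (k := j)
        (by rw [G.d_self]; exact Nat.zero_le _) hj
      exact ⟨bk z, Finset.mem_image.2 ⟨z, mem_clus.2 ((mem_clus.1 hp).trans hz), rfl⟩, hzj⟩
    · unfold cC at ha
      rw [if_neg hC] at ha
      simp at ha

/-- sums over a triple -/
theorem tsum_trip {α β γ : Type*} [Fintype α] [Fintype γ] (f : α → β → γ → ℝ≥0∞) :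
    ∑' i : α × β × γ, f i.1 i.2.1 i.2.2 = ∑ a, ∑' b, ∑ c, f a b c := by
  rw [ENNReal.tsum_prod (f := fun a (p : β × γ) => f a p.1 p.2), tsum_fintype]
  refine Finset.sum_congr rfl fun a _ => ?_
  rw [ENNReal.tsum_prod (f := fun b c => f a b c)]
  exact tsum_congr fun b => tsum_fintype _

open Classical in
/-- a sum over the points is a sum over the clusters -/
theorem sum_over_clus (s t : E → V) (om : Finset E) (f : V → Finset V → ℝ≥0∞) :
    ∑ u, f u (clus s t om u) = ∑ C : Finset V, if IsC s t om C then ∑ u ∈ C, f u C else 0 := by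
  rw [← Finset.sum_fiberwise_of_maps_to (s := (univ : Finset V))
    (t := (univ : Finset (Finset V))) (g := fun u => clus s t om u)
    (fun _ _ => Finset.mem_univ _)]
  refine Finset.sum_congr rfl fun C _ => ?_
  by_cases hC : IsC s t om C
  · rw [if_pos hC]
    obtain ⟨v, rfl⟩ := hC
    have h1 : (univ.filter fun u => clus s t om u = clus s t om v) = clus s t om v := by
      ext u
      rw [Finset.mem_filter]
      constructor
      · rintro ⟨_, h⟩
        rw [← h]
        exact self_mem_clus u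
      · intro h
        refine ⟨Finset.mem_univ _, ?_⟩
        have hvu := mem_clus.1 h
        ext w
        rw [mem_clus, mem_clus]
        exact ⟨fun h => hvu.trans h, fun h => hvu.symm.trans h⟩
    rw [h1]
    refine Finset.sum_congr rfl fun u hu => ?_
    have : clus s t om u = clus s t om v := by
      rw [← h1] at hu
      exact (Finset.mem_filter.1 hu).2
    rw [this]
  · rw [if_neg hC]
    apply Finset.sum_eq_zero
    intro u hu
    exact absurd ⟨u, (Finset.mem_filter.1 hu).2⟩ hC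

/-- indicator of a block -/
noncomputable def bet (bk : V → 𝔹) (a : 𝔹) (v : V) : ℝ := if bk v = a then 1 else 0

/-- the set meets `a` and a block at distance at least `R` -/
def Phi (G : Geo 𝔹) (bk : V → 𝔹) (a : 𝔹) (R : ℕ) (C : Finset V) : Prop :=
  a ∈ C.image bk ∧ ∃ b ∈ C.image bk, R ≤ G.d a b

theorem bet_nonneg (bk : V → 𝔹) (a : 𝔹) (v : V) : 0 ≤ bet bk a v := by
  unfold bet; split_ifs <;> norm_num

theorem sum_bet (bk : V → 𝔹) (a : 𝔹) (C : Finset V) (g : V → ℝ) :
    ∑ v ∈ C, bet bk a v * g v = ∑ v ∈ C.filter (fun v => bk v = a), g v := by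
  unfold bet
  rw [Finset.sum_filter]
  refine Finset.sum_congr rfl fun v _ => ?_
  split_ifs <;> simp

variable {σ : Sys V E S} {G : Geo 𝔹} {bk : V → 𝔹} {ε : ℝ}
  {hadj : ∀ e, G.d (bk (σ.s e)) (bk (σ.t e)) ≤ 1}

open Classical in
/-- **the size biased sums of `e6` in the gas** -/
theorem tsum_e6q (hε : 0 < ε) (hZ : 0 < ∑' x, σ.tot x) (a : 𝔹) (R : ℕ)
    (F : Finset E → (V → S) → Finset V → ℝ≥0∞) :
    ∑' i : Finset E × (V → S) × V, ENNReal.ofReal (σ.e6q (bet bk a) (Phi G bk a R) i) *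
        F i.1 i.2.1 (clus σ.s σ.t i.1 i.2.2) =
      ENNReal.ofReal ((∑' x, σ.tot x) / ε ^ 2) *
        H352.S (gas σ G bk ε hadj).p
          (fun i => (gas σ G bk ε hadj).wJ a R i * F i.1 i.2.1 i.2.2) := by
  unfold H352.S
  rw [← ENNReal.tsum_mul_left]
  rw [tsum_trip (fun om x u => ENNReal.ofReal (σ.e6q (bet bk a) (Phi G bk a R) (om, x, u)) *
        F om x (clus σ.s σ.t om u))]
  rw [tsum_trip (fun om x C => ENNReal.ofReal ((∑' x, σ.tot x) / ε ^ 2) *
    ((gas σ G bk ε hadj).p (om, x, C) * ((gas σ G bk ε hadj).wJ a R (om, x, C) * F om x C)))]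
  refine Finset.sum_congr rfl fun om _ => tsum_congr fun x => ?_
  have key := sum_over_clus σ.s σ.t om (fun u C => ENNReal.ofReal (σ.wt om x *
    (σ.e6a (bet bk a) u C x * (if Phi G bk a R C then 1 else 0))) * F om x C)
  have e1 : ∑ u, ENNReal.ofReal (σ.e6q (bet bk a) (Phi G bk a R) (om, x, u)) *
        F om x (clus σ.s σ.t om u) = ∑ u, ENNReal.ofReal (σ.wt om x *
    (σ.e6a (bet bk a) u (clus σ.s σ.t om u) x *
      (if Phi G bk a R (clus σ.s σ.t om u) then 1 else 0))) * F om x (clus σ.s σ.t om u) := rfl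
  rw [e1, key]
  refine Finset.sum_congr rfl fun C _ => ?_
  by_cases hC : IsC σ.s σ.t om C
  swap
  · rw [if_neg hC]
    have h0 : (gas σ G bk ε hadj).p (om, x, C) = 0 := by
      show (if IsC σ.s σ.t om C then _ else (0 : ℝ≥0∞)) = 0
      rw [if_neg hC]
    rw [h0]
    simp
  rw [if_pos hC]
  have hp : (gas σ G bk ε hadj).p (om, x, C) =
      ENNReal.ofReal (σ.wt om x / ∑' x, σ.tot x) := by
    show (if IsC σ.s σ.t om C then _ else (0 : ℝ≥0∞)) = _
    rw [if_pos hC]
  set r : ℝ := ∑ z ∈ C.filter (fun z => bk z = a), |σ.D x z| with hr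
  have hr0 : 0 ≤ r := Finset.sum_nonneg fun z _ => abs_nonneg _
  have hX : (gas σ G bk ε hadj).X (om, x, C) a = ENNReal.ofReal (ε * r) := by
    show ENNReal.ofReal (ε * ∑ z ∈ (cC σ.s σ.t om C).filter (fun z => bk z = a), |σ.D x z|) = _
    rw [cC_of hC]
  have hJ : (gas σ G bk ε hadj).J a R (om, x, C) ↔ Phi G bk a R C := by
    show (a ∈ (cC σ.s σ.t om C).image bk ∧ ∃ b ∈ (cC σ.s σ.t om C).image bk, R ≤ G.d a b) ↔ _
    rw [cC_of hC]
    rfl
  have hsum : ∑ u ∈ C, σ.e6a (bet bk a) u C x = r ^ 2 := by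
    unfold Sys.e6a
    rw [← Finset.sum_mul, sum_bet bk a C (fun u => |σ.D x u|), sq]
  rw [← Finset.sum_mul, ← ENNReal.ofReal_sum_of_nonneg]
  swap
  · intro u _
    refine mul_nonneg (σ.wt_nonneg _ _) (mul_nonneg (σ.e6a_nonneg (bet_nonneg bk a) _ _ _) ?_)
    split_ifs <;> norm_num
  rw [← Finset.mul_sum, ← Finset.sum_mul, hsum]
  unfold Gas.wJ
  rw [hX, hp]
  by_cases hΦ : Phi G bk a R C
  · rw [if_pos hΦ, ind_true (hJ.2 hΦ), one_mul, mul_one, ← ENNReal.ofReal_pow
      (mul_nonneg hε.le hr0)]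
    rw [← mul_assoc, ← mul_assoc, ← ENNReal.ofReal_mul (by positivity)]
    rw [← ENNReal.ofReal_mul (mul_nonneg (by positivity) (div_nonneg (σ.wt_nonneg _ _) hZ.le))]
    congr 2
    have hZ' := hZ.ne'
    field_simp
  · rw [if_neg hΦ, ind_false (fun h => hΦ (hJ.1 h))]
    simp

end Vale.Agent.P159.TM.H634
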