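import Vale.Agent.P159.TM.H634.TiltR
import Vale.Agent.P159.TM.H551.Mom

/-!
# P159, row TILT (4): `exp (Var / 2) ≤ E exp` for the pinned model

The hypothesis `LPV` of `tilt_one`, `tilt_two` holds for all positive masses: `H821.four_exp` with
exact pins and `H551.half_le_log`.
-/

open Finset
open scoped ENNReal

set_option linter.unusedSectionVars false

namespace Vale.Agent.P159.TM.H634

open Vale.Agent.P159.H353 Vale.Agent.P159.T1.H897 H60 H352 H131
open Vale.Agent.P159.TM.H708 (SS lf bw iX)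
open Vale.Agent.P159.T1.H934 (grd)
open Vale.Agent.P159.TM.H821 (Zt Wt pin0 four_exp Dup dup_mass)
open Vale.Agent.P159.TM.H551 (mg half_le_log)

variable {V E : Type} [Fintype V] [DecidableEq V] [Fintype E] [DecidableEq E]
variable {s t : E → V} {b : E → ℝ} {m : V → ℝ}

/-- the pinned weight in the letters of `H821` -/
theorem ofReal_bw (hb : ∀ e, 0 ≤ b e) (X : Finset V) (τ : V → ℝ) (h : V → ℤ) :
    ENNReal.ofReal (bw (grd s t) b m (X : Set V) h * Real.exp (lf τ h)) =
      Wt s t (fun e n => Ib (b e) n) (fun p : {v // v ∈ X} => p.1) pin0 (H131.MM m) h 0 0 τ := by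
  rw [ENNReal.ofReal_mul (H708.bw_nonneg hb h)]
  unfold bw Wt
  rw [ENNReal.ofReal_mul (T1.H934.W_nonneg hb h),
    ENNReal.ofReal_mul (H708.ga_pos m h).le]
  have e1 : ENNReal.ofReal (T1.H934.W (grd s t) b h) = ∏ e, Ib (b e) (h (t e) - h (s e)) := by
    unfold T1.H934.W
    rw [ENNReal.ofReal_prod_of_nonneg fun e _ => wI_nonneg (hb e) _]
    refine Finset.prod_congr rfl fun e _ => ?_
    rw [Ib_eq (hb e)]
    rfl
  have e2 : ENNReal.ofReal (iX (X : Set V) h) =
      ∏ p : {v // v ∈ X}, pin0 p (h p.1 - (0 : {v // v ∈ X} → ℤ) p) := by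
    unfold iX
    split_ifs with hc
    · rw [ENNReal.ofReal_one]
      symm
      refine Finset.prod_eq_one fun p _ => ?_
      have := hc p.1 p.2
      simp [pin0, this]
    · rw [ENNReal.ofReal_zero]
      symm
      push Not at hc
      obtain ⟨v, hv, hne⟩ := hc
      refine Finset.prod_eq_zero (Finset.mem_univ (⟨v, hv⟩ : {v // v ∈ X})) ?_
      simp [pin0, hne]
  have e3 : ENNReal.ofReal (H708.ga m h) = H131.MM m fun x => (h x : ℝ) - (0 : V → ℝ) x := by
    unfold H708.ga H131.MM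
    simp
  rw [e1, e2, e3]
  unfold H708.lf
  ring

theorem mg_eq (hb : ∀ e, 0 ≤ b e) (hm : ∀ v, 0 < m v) (X : Finset V) (τ : V → ℝ) (r : ℝ) :
    ENNReal.ofReal (mg (bw (grd s t) b m (X : Set V)) (lf τ) r) =
      Zt s t (fun e n => Ib (b e) n) (fun p : {v // v ∈ X} => p.1) pin0 (H131.MM m) 0 0
        (fun v => r * τ v) := by
  unfold mg Zt
  have hl : ∀ h : V → ℤ, r * lf τ h = lf (fun v => r * τ v) h := fun h =>
    (H708.lf_rsmul r τ h).symm
  rw [ENNReal.ofReal_tsum_of_nonneg]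
  · refine tsum_congr fun h => ?_
    rw [hl, ofReal_bw hb]
  · exact fun h => mul_nonneg (H708.bw_nonneg hb h) (Real.exp_pos _).le
  · simp only [hl]
    exact (H708.bw_summable hb hm (H708.gr_exp _)).of_abs

theorem mg_four (hb : ∀ e, 0 ≤ b e) (hm : ∀ v, 0 < m v) (X : Finset V) (τ : V → ℝ) (r : ℝ) :
    mg (bw (grd s t) b m (X : Set V)) (lf τ) r ^ 4 ≤
      mg (bw (grd s t) b m (X : Set V)) (lf τ) 0 ^ 3 *
        mg (bw (grd s t) b m (X : Set V)) (lf τ) (2 * r) := by
  have hn : ∀ r, 0 ≤ mg (bw (grd s t) b m (X : Set V)) (lf τ) r := fun r =>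
    H551.mg_nonneg (fun h => H708.bw_nonneg hb h) r
  rw [← ENNReal.ofReal_le_ofReal_iff (mul_nonneg (pow_nonneg (hn _) _) (hn _)),
    ENNReal.ofReal_mul (pow_nonneg (hn _) _), ENNReal.ofReal_pow (hn _),
    ENNReal.ofReal_pow (hn _), mg_eq hb hm, mg_eq hb hm, mg_eq hb hm]
  have h := four_exp (s := s) (t := t) (I := fun e n => Ib (b e) n)
    (pt := fun p : {v // v ∈ X} => p.1) (J := pin0) (M := H131.MM m)
    (fun e => dup_Ib (hb e)) (fun p => Dup.pin fun x hx => by omega) (dup_mass m)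
    (fun v => r * τ v)
  have e0 : (fun v => 0 * τ v) = (0 : V → ℝ) := by funext v; simp
  have e2 : (fun v => 2 * r * τ v) = (fun v => r * τ v) + fun v => r * τ v := by
    funext v; simp only [Pi.add_apply]; ring
  rw [e0, e2]
  exact h

/-- the constant of the inside -/
noncomputable def KA (s t : E → V) (b : E → ℝ) (A : Finset V) : ℝ≥0∞ :=
  (∏ e ∈ inE s t A, Ib (b e) 0) * ∏ e ∈ bdE s t A, Ib (b e) 0

theorem KA_ne_zero (hb : ∀ e, 0 ≤ b e) (A : Finset V) : KA s t b A ≠ 0 :=
  mul_ne_zero (Finset.prod_ne_zero_iff.2 fun e _ => (Ib_zero_pos (hb e)).ne')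
    (Finset.prod_ne_zero_iff.2 fun e _ => (Ib_zero_pos (hb e)).ne')

theorem KA_ne_top (hb : ∀ e, 0 ≤ b e) (A : Finset V) : KA s t b A ≠ ⊤ := by
  have h1 : ∀ e, Ib (b e) 0 ≠ ⊤ := fun e => by
    rw [Ib_eq (hb e)]; exact ENNReal.ofReal_ne_top
  exact ENNReal.mul_ne_top (ENNReal.prod_ne_top fun e _ => h1 e)
    (ENNReal.prod_ne_top fun e _ => h1 e)

theorem sum_off (A : Finset V) (Φ : V → ℝ) (h : ∀ v ∈ A, Φ v = 0) :
    ∑ v, Φ v = ∑ v : {v // v ∉ A}, Φ v.1 := by
  rw [← Fintype.sum_subtype_add_sum_subtype (fun v => v ∈ A) Φ,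
    Finset.sum_eq_zero fun v _ => h v.1 v.2, zero_add]

/-- the pinned partition function in the full letters -/
theorem Zp_full (hb : ∀ e, 0 ≤ b e) (hm : ∀ v, 0 < m v) (A : Finset V) (τ : V → ℝ) :
    ENNReal.ofReal (mg (bw (grd s t) b m ((oc s t A : Finset V) : Set V)) (lf τ) 1) =
      KA s t b A * Zp s t A b m τ := by
  classical
  rw [mg_eq hb hm]
  simp only [one_mul]
  unfold Zt
  set F : (V → ℤ) → ℝ≥0∞ := fun h => Wt s t (fun e n => Ib (b e) n)
    (fun p : {v // v ∈ oc s t A} => p.1) pin0 (H131.MM m) h 0 0 τ with hF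
  have h0 : ∀ h : V → ℤ, F h = if ∀ v ∈ A, h v = 0 then F h else 0 := by
    intro h
    split_ifs with hc
    · rfl
    · push Not at hc
      obtain ⟨v, hv, hne⟩ := hc
      have hv' : v ∈ oc s t A := Finset.mem_union_left _ hv
      simp only [hF]
      unfold Wt
      rw [Finset.prod_eq_zero (Finset.mem_univ (⟨v, hv'⟩ : {v // v ∈ oc s t A})), zero_mul]
      simp [pin0, hne]
  rw [tsum_congr h0, H682.tsum_gl_zero A F]
  unfold Zp
  rw [← ENNReal.tsum_mul_left]
  refine tsum_congr fun y => ?_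
  have hg : ∀ v, H682.gl A 0 y v = H131.gl A (fun _ => 0) y v := by
    intro v
    unfold H682.gl H131.gl
    split_ifs <;> rfl
  have hz : ∀ v ∈ A, H682.gl A 0 y v = 0 := fun v hv => by
    rw [H682.gl_mem hv]; rfl
  have hy : ∀ v (hv : v ∉ A), H682.gl A 0 y v = y ⟨v, hv⟩ := fun v hv => H682.gl_not_mem hv
  simp only [hF]
  unfold Wt
  by_cases hc : ∀ e ∈ bdE s t A, H131.gl A (fun _ => 0) y (H131.out s t A e) = 0
  swap
  · rw [if_neg hc]
    push Not at hc
    obtain ⟨e, he, hne⟩ := hc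
    have hv' : H131.out s t A e ∈ oc s t A :=
      Finset.mem_union_right _ (Finset.mem_image_of_mem _ he)
    rw [Finset.prod_eq_zero (Finset.mem_univ (⟨_, hv'⟩ : {v // v ∈ oc s t A}))]
    · simp
    · rw [← hg] at hne
      simp [pin0, hne]
  rw [if_pos hc, one_mul]
  have hX : ∀ v ∈ oc s t A, H682.gl A 0 y v = 0 := by
    intro v hv
    rcases Finset.mem_union.1 hv with hv | hv
    · exact hz v hv
    · obtain ⟨e, he, rfl⟩ := Finset.mem_image.1 hv
      rw [hg]
      exact hc e he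
  have e1 : ∏ p : {v // v ∈ oc s t A}, (pin0 p (H682.gl A 0 y p.1 -
      (0 : {v // v ∈ oc s t A} → ℤ) p) : ℝ≥0∞) = 1 := by
    refine Finset.prod_eq_one fun p _ => ?_
    rw [hX p.1 p.2]
    simp [pin0]
  have e2 : ∏ e, Ib (b e) (H682.gl A 0 y (t e) - H682.gl A 0 y (s e)) =
      KA s t b A * FO s t A b y := by
    rw [H682.prod_three (s := s) (t := t) A]
    unfold KA FO
    congr 1
    · congr 1
      · refine Finset.prod_congr rfl fun e he => ?_
        have h2 := mem_inE.1 he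
        rw [hz _ h2.1, hz _ h2.2, sub_zero]
      · refine Finset.prod_congr rfl fun e he => ?_
        have h3 := mem_bdE.1 he
        have h4 : H131.out s t A e ∈ oc s t A :=
          Finset.mem_union_right _ (Finset.mem_image_of_mem _ he)
        have h5 := hX _ h4
        have h6 : H682.gl A 0 y (t e) = 0 ∧ H682.gl A 0 y (s e) = 0 := by
          unfold H131.out at h5
          by_cases hs : s e ∈ A
          · rw [if_pos hs] at h5
            exact ⟨h5, hz _ hs⟩
          · rw [if_neg hs] at h5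
            have ht : t e ∈ A := by
              by_contra h
              exact h3 ⟨fun h4 => absurd h4 hs, fun h4 => absurd h4 h⟩
            exact ⟨hz _ ht, h5⟩
        rw [h6.1, h6.2, sub_zero]
  have e3 : (H131.MM m fun x => (H682.gl A 0 y x : ℝ) - (0 : V → ℝ) x) =
      GA A m (fun _ => 0) y := by
    rw [GA_eq]
    unfold H131.MM
    rw [sum_off A]
    · congr 3
      refine Finset.sum_congr rfl fun v _ => ?_
      show m v.1 / 2 * ((H682.gl A 0 y v.1 : ℝ) - (0 : V → ℝ) v.1) ^ 2 =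
        m v.1 / 2 * ((y v : ℝ) - 0) ^ 2
      rw [hy v.1 v.2]
      simp
    · intro v hv
      show m v / 2 * ((H682.gl A 0 y v : ℝ) - (0 : V → ℝ) v) ^ 2 = 0
      rw [hz v hv]
      simp
  have e4 : ENNReal.ofReal (Real.exp (∑ x, τ x * (H682.gl A 0 y x : ℝ))) = TI A τ y := by
    unfold TI
    rw [sum_off A]
    · congr 2
      refine Finset.sum_congr rfl fun v _ => ?_
      rw [hy v.1 v.2]
    · intro v hv
      rw [hz v hv]
      simp
  rw [e3, e4]
  show (∏ p : {v // v ∈ oc s t A}, (pin0 p (H682.gl A 0 y p.1 -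
      (0 : {v // v ∈ oc s t A} → ℤ) p) : ℝ≥0∞)) *
    ((∏ e, Ib (b e) (H682.gl A 0 y (t e) - H682.gl A 0 y (s e))) *
    (GA A m (fun _ => 0) y * TI A τ y)) = _
  rw [e1, e2]
  ring

/-- **the hypothesis `LPV` holds for all positive masses** -/
theorem lpv (hb : ∀ e, 0 ≤ b e) (hm : ∀ v, 0 < m v) : LPV s t b m := by
  intro A τ
  set X : Set V := ((oc s t A : Finset V) : Set V) with hX
  set w := bw (grd s t) b m X with hw
  have hw0 : ∀ h, 0 ≤ w h := fun h => H708.bw_nonneg hb h
  have hl : ∀ (r : ℝ) (h : V → ℤ), r * lf τ h = lf (fun v => r * τ v) h := fun r h =>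
    (H708.lf_rsmul r τ h).symm
  have hs : ∀ r : ℝ, Summable fun h => w h * Real.exp (r * lf τ h) := by
    intro r
    simp only [hl]
    exact (H708.bw_summable hb hm (H708.gr_exp _)).of_abs
  have hs0 : Summable w := by
    have := hs 0
    simpa using this
  have hw1 : 0 < w 0 := by
    have h1 : iX X (0 : V → ℤ) = 1 := H708.iX_zero X
    simp only [hw]
    unfold bw
    rw [h1, mul_one]
    refine mul_pos ?_ (H708.ga_pos m 0)
    unfold T1.H934.W
    refine Finset.prod_pos fun e _ => ?_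
    have : (grd s t) (0 : V → ℤ) e = 0 := by rw [map_zero]; rfl
    rw [this]
    exact wI_zero_pos (hb e)
  have hZ : 0 < mg w (lf τ) 0 := by
    rw [H551.mg_zero]
    exact hs0.tsum_pos hw0 0 hw1
  have hev : ∀ r, mg w (lf τ) (-r) = mg w (lf τ) r := by
    intro r
    unfold mg
    rw [← (Equiv.neg (V → ℤ)).tsum_eq]
    refine tsum_congr fun h => ?_
    have h1 : w (-h) = w h := by
      simp only [hw]
      unfold bw T1.H934.W H708.ga iX
      congr 1
      · refine Finset.prod_congr rfl fun e _ => ?_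
        rw [map_neg]
        exact wI_neg _ _
      · congr 1
        · congr 2
          refine Finset.sum_congr rfl fun v _ => ?_
          simp
        · simp
    simp only [Equiv.neg_apply]
    rw [h1, H708.lf_neg]
    congr 2
    ring
  have key := half_le_log hw0 hs hev hZ (fun r => mg_four hb hm (oc s t A) τ r) 1
  have e1 : (mg w (lf τ) 1) = (KA s t b A).toReal * (Zp s t A b m τ).toReal := by
    rw [← ENNReal.toReal_mul, ← Zp_full hb hm A τ,
      ENNReal.toReal_ofReal (H551.mg_nonneg hw0 _)]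
  have e0 : (mg w (lf τ) 0) = (KA s t b A).toReal * (Zp s t A b m (fun _ => 0)).toReal := by
    rw [← ENNReal.toReal_mul, ← Zp_full hb hm A (fun _ => 0),
      ENNReal.toReal_ofReal (H551.mg_nonneg hw0 _)]
    unfold mg
    refine tsum_congr fun h => ?_
    have : lf (fun _ : V => (0 : ℝ)) h = 0 := by unfold H708.lf; simp
    rw [this]
    simp
  have hK : 0 < (KA s t b A).toReal := ENNReal.toReal_pos (KA_ne_zero hb A) (KA_ne_top hb A)
  have h1 := ENNReal.toReal_pos (Zp_ne_zero s t A hb m τ) (Zp_ne_top s t A hb m τ hm)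
  have h0 := ENNReal.toReal_pos (Zp_ne_zero s t A hb m (fun _ => 0))
    (Zp_ne_top s t A hb m (fun _ => 0) hm)
  have e2 : Real.log (mg w (lf τ) 1 / mg w (lf τ) 0) = Lp s t A b m τ := by
    unfold Lp
    rw [e1, e0, mul_div_mul_left _ _ hK.ne', Real.log_div h1.ne' h0.ne']
  rw [e2] at key
  refine le_trans (le_of_eq ?_) key
  unfold E0 SS
  rw [H551.mg_zero]
  simp only [mul_one]
  ring

end Vale.Agent.P159.TM.H634
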