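import Vale.Agent.P159.TM.H634.B1b
import Vale.Agent.P159.TM.H576.Fath2
import Vale.Agent.P159.TM.Spec.AB

/-!
# P159, T1: Theorem B1

Circuits everywhere in a real background give exponential clustering in this background
(`Spec.ThmB1`), from Theorem A: H352's gas of `Spec.σ2` with the tilt inequality `tiltT_two`, the
moments `emb_two`, the fatness `H576.fath_two` and H352's `Gas.decay`.
-/

open Finset
open scoped ENNReal NNReal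

set_option linter.unusedSectionVars false
set_option linter.unusedDecidableInType false

namespace Vale.Agent.P159.TM.H634

open H60 H352 H131 H576
open Vale.Agent.P159.TM.H459 (tS tT bk bk1 bk_edge sd_edge blk mem_blk sd sn sd_symm sd_tri sd_self
  ball mem_ball sd_of_bk_eq card_ball_le)

section

variable {N n : ℕ} [NeZero N] [NeZero n]

/-- every block has a point -/
theorem exists_bk {l : ℕ} (hl : 0 < l) (hN : N = n * l) (β : ZMod n × ZMod n) :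
    ∃ x0 : ZMod N × ZMod N, bk n l x0 = β := by
  have key : ∀ j : ZMod n, bk1 n l (((j.val * l : ℕ) : ZMod N)) = j := by
    intro j
    unfold bk1
    have h1 : j.val * l < N := by
      rw [hN]
      exact Nat.mul_lt_mul_of_pos_right (ZMod.val_lt j) hl
    rw [ZMod.val_natCast, Nat.mod_eq_of_lt h1, Nat.mul_div_cancel _ hl, ZMod.natCast_zmod_val]
  exact ⟨(((β.1.val * l : ℕ) : ZMod N), ((β.2.val * l : ℕ) : ZMod N)),
    Prod.ext (key β.1) (key β.2)⟩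

theorem sd_le_N (x z : ZMod N × ZMod N) : sd x z ≤ N := by
  unfold sd sn
  have h1 := ZMod.natAbs_valMinAbs_le (z - x).1
  have h2 := ZMod.natAbs_valMinAbs_le (z - x).2
  omega

theorem ball_univ {m : ℕ} (hm : N ≤ m) (x : ZMod N × ZMod N) : ball x m = univ := by
  ext z
  rw [mem_ball]
  simp only [Finset.mem_univ, iff_true]
  exact (sd_le_N x z).trans hm

end

theorem exists_K (q1 q2 q3 q4 q5 q6 : ℝ) : ∃ K : ℝ≥0, 1 ≤ (K : ℝ) ∧ q1 ≤ (K : ℝ) ∧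
    q2 ≤ (K : ℝ) ∧ q3 ≤ (K : ℝ) ∧ q4 ≤ (K : ℝ) ∧ q5 ≤ (K : ℝ) ∧ q6 ≤ (K : ℝ) := by
  set s : ℝ := 1 + |q1| + |q2| + |q3| + |q4| + |q5| + |q6| with hs
  have h := Real.le_coe_toNNReal s
  have h1 := le_abs_self q1
  have h2 := le_abs_self q2
  have h3 := le_abs_self q3
  have h4 := le_abs_self q4
  have h5 := le_abs_self q5
  have h6 := le_abs_self q6
  have a1 := abs_nonneg q1
  have a2 := abs_nonneg q2
  have a3 := abs_nonneg q3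
  have a4 := abs_nonneg q4
  have a5 := abs_nonneg q5
  have a6 := abs_nonneg q6
  refine ⟨Real.toNNReal s, ?_, ?_, ?_, ?_, ?_, ?_, ?_⟩ <;> linarith

section steps

variable {N n : ℕ} [NeZero N] [NeZero n] {b : ℝ}

/-- partition function of one copy -/
theorem zz_one (hb : 0 ≤ b) {ξ : ℕ} (hξ : 0 < ξ) :
    H352.ZZ (Spec.σ1 N b ξ hb) ≠ 0 ∧ H352.ZZ (Spec.σ1 N b ξ hb) ≠ ∞ := by
  have hs : Summable fun x => (S1 (tS (N := N)) tT (fun _ => hb)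
      (fun _ => 1 / (ξ : ℝ) ^ 2)).tot x := by
    have h : (S1 (tS (N := N)) tT (fun _ => hb) (fun _ => 1 / (ξ : ℝ) ^ 2)).ExpS :=
      one_ExpS (fun e n => Vale.Agent.P159.H353.wI_nonneg hb n)
        (fun e n => Vale.Agent.P159.H353.wI_neg _ _)
        (fun e => T1.H897.logC_wI hb) (wt_b tS tT fun _ => hb) (fun _ => by positivity)
    have h0 := h fun _ => 0
    simp only [Sys.pr, zero_mul, Finset.sum_const_zero, Real.exp_zero, mul_one] at h0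
    exact h0
  have hp : 0 < ∑' x, (S1 (tS (N := N)) tT (fun _ => hb)
      (fun _ => 1 / (ξ : ℝ) ^ 2)).tot x := by
    rw [S1_sum_tot]
    exact (wt_b tS tT fun _ => hb).Z_pos (fun _ => by positivity) 0
  rw [s1_eq, ZZ_eq _ hs]
  exact ⟨(ENNReal.ofReal_pos.2 hp).ne', ENNReal.ofReal_ne_top⟩

/-- `Xi` of one copy -/
theorem Xi_one (hb : 0 ≤ b) {ξ : ℕ} (hξ : 0 < ξ) (hN : N = n * ξ) {ε : ℝ≥0}
    (hεl : (ε : ℝ) * (ξ : ℝ) ^ 2 = 1) {CA : ℝ}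
    (h : ∀ z0 : Spec.V N, Spec.Ele (Spec.σ1 N b ξ hb)
      (Spec.XF (Spec.σ1 N b ξ hb) (ball z0 N) (ball z0 ξ)) (CA * (ξ : ℝ) ^ 4))
    (c : ZMod n × ZMod n) (R : ℕ) (β : ZMod n × ZMod n) :
    (H352.gas (Spec.σ1 N b ξ hb) rfl rfl ε hξ hN).Xi c R β ≤ ENNReal.ofReal (max 1 CA) := by
  obtain ⟨z0, hz0⟩ := exists_bk (N := N) hξ hN β
  have h1 := h z0
  rw [ball_univ le_rfl] at h1
  have h2 := Xi_of_XF (σ := Spec.σ1 N b ξ hb) (hs := rfl) (ht := rfl) (ε := ε) (hl := hξ)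
    (hN := hN) (zz_one hb hξ).1 (zz_one hb hξ).2 hεl z0 h1 c R
  rw [hz0] at h2
  exact h2.trans (ENNReal.ofReal_le_ofReal (le_max_right _ _))

/-- moments of two copies -/
theorem mom_two (hb : 0 ≤ b) {ξ : ℕ} (hξ : 0 < ξ) (hN : N = n * ξ) {ε : ℝ≥0}
    (hεr : (ε : ℝ) = 1 / (ξ : ℝ) ^ 2) {y a : ℝ}
    (hQ : H764.QU (ξ : ℝ) (Spec.GT N b ξ) y a) (hkap : (N : ℝ) ^ 2 * y / (ξ : ℝ) ^ 2 ≤ 1)
    (f : ZMod N × ZMod N → ℝ) {K : ℝ≥0} (k : ℕ) (hk : k ≠ 0)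
    (hkK : 2 * (Nat.factorial (2 * k) : ℕ) * Real.exp 2 ≤ (K : ℝ)) (c : ZMod n × ZMod n) :
    H352.S (H352.gas (Spec.σ2 N b ξ hb f) rfl rfl ε hξ hN).p
        (fun i => (H352.gas (Spec.σ2 N b ξ hb f) rfl rfl ε hξ hN).X i c ^ (2 * k)) ≤ K := by
  have hE := emb_two hb hξ hξ hN le_rfl hεr hQ f
  have hexp : ENNReal.ofReal (Real.exp (1 + (N : ℝ) ^ 2 * y / (ξ : ℝ) ^ 2)) ≤
      ENNReal.ofReal (Real.exp 2) :=
    ENNReal.ofReal_le_ofReal (Real.exp_le_exp.2 (by linarith))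
  refine (mom_gas (hs := rfl) (ht := rfl) (hl := hξ) (hN := hN) hE (zz_two_ne_zero hb hξ f)
    (zz_two_ne_top hb hξ f) c hk).trans ?_
  calc 2 * ((Nat.factorial (2 * k) : ℕ) : ℝ≥0∞) *
        ENNReal.ofReal (Real.exp (1 + (N : ℝ) ^ 2 * y / (ξ : ℝ) ^ 2))
      ≤ 2 * ((Nat.factorial (2 * k) : ℕ) : ℝ≥0∞) * ENNReal.ofReal (Real.exp 2) := by gcongr
    _ = ENNReal.ofReal (2 * (Nat.factorial (2 * k) : ℕ) * Real.exp 2) := by
        rw [ENNReal.ofReal_mul (by positivity), ENNReal.ofReal_mul (by norm_num),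
          ENNReal.ofReal_natCast]
        norm_num
    _ ≤ ENNReal.ofReal (K : ℝ) := ENNReal.ofReal_le_ofReal hkK
    _ = K := ENNReal.ofReal_coe_nnreal

/-- **decay of the two-copy gas** -/
theorem W_two (hb : 0 < b) {ξ A : ℕ} (hξ : 0 < ξ) (hA : 8 ≤ A) (hAξ : A ≤ ξ) (hN : N = n * ξ)
    {c₀ δ : ℝ} (hc₀ : 0 < c₀) (hδ : 0 < δ) (hδξ : 1 ≤ δ * (ξ : ℝ) ^ 2) {y a : ℝ} (hy0 : 0 ≤ y)
    (hQ : H764.QU (ξ : ℝ) (Spec.GT N b ξ) y a) (hkap : (N : ℝ) ^ 2 * y / (ξ : ℝ) ^ 2 ≤ 1)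
    {f : Spec.V N → ℝ}
    (hO : ∀ x0, c₀ ≤ Spec.PO N b ξ hb.le ⌊δ * (ξ : ℝ) ^ 2⌋₊ (ξ / A) f x0)
    {K : ℝ≥0} (hK1 : 1 ≤ K) (k1 : 4 * Real.exp 4 ≤ (K : ℝ)) (k2 : 160 ≤ (K : ℝ))
    (k3 : 20 + 640 * max a 0 ≤ (K : ℝ))
    (k4 : 2 * (Nat.factorial (2 * 1) : ℕ) * Real.exp 2 ≤ (K : ℝ))
    (k5 : 2 * (Nat.factorial (2 * 10) : ℕ) * Real.exp 2 ≤ (K : ℝ))
    (k6 : 2 * (4 * (A : ℝ) + 1) ^ 2 / (c₀ * δ) ≤ (K : ℝ)) {M : ℝ} (hM1 : 1 ≤ M)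
    (hXi : ∀ (c : ZMod n × ZMod n) (R : ℕ) (β : ZMod n × ZMod n),
      (H352.gas (Spec.σ1 N b ξ hb.le) rfl rfl (((ξ : ℝ≥0) ^ 2)⁻¹) hξ hN).Xi c R β ≤
        ENNReal.ofReal M) {R : ℕ} (hyR : y * ((R : ℝ) + 1) ≤ 1) (c : ZMod n × ZMod n) :
    (H352.gas (Spec.σ2 N b ξ hb.le f) rfl rfl (((ξ : ℝ≥0) ^ 2)⁻¹) hξ hN).W c R ≤
      ENNReal.ofReal (K * Real.exp (rt K 2 M * (2 * (2 : ℕ))) *
        Real.exp (-(rt K 2 M * ((R : ℝ) + 1)))) := by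
  have hξ' : (0 : ℝ) < ξ := by exact_mod_cast hξ
  have hεr : (((((ξ : ℝ≥0) ^ 2)⁻¹ : ℝ≥0)) : ℝ) = 1 / (ξ : ℝ) ^ 2 := by push_cast; rw [one_div]
  have hε0 : ((ξ : ℝ≥0) ^ 2)⁻¹ ≠ 0 := by
    intro h0
    rw [h0] at hεr
    have : (0 : ℝ) < 1 / (ξ : ℝ) ^ 2 := by positivity
    rw [← hεr] at this
    simp at this
  have h2 : ∀ c, H352.S (H352.gas (Spec.σ2 N b ξ hb.le f) rfl rfl (((ξ : ℝ≥0) ^ 2)⁻¹) hξ hN).p
      (fun i => (H352.gas (Spec.σ2 N b ξ hb.le f) rfl rfl (((ξ : ℝ≥0) ^ 2)⁻¹) hξ hN).X i c ^ 2) ≤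
        K := mom_two hb.le hξ hN hεr hQ hkap f 1 one_ne_zero k4
  have h20 : ∀ c, H352.S (H352.gas (Spec.σ2 N b ξ hb.le f) rfl rfl (((ξ : ℝ≥0) ^ 2)⁻¹) hξ hN).p
      (fun i => (H352.gas (Spec.σ2 N b ξ hb.le f) rfl rfl (((ξ : ℝ≥0) ^ 2)⁻¹) hξ hN).X i c ^ 20) ≤
        K := mom_two hb.le hξ hN hεr hQ hkap f 10 (by norm_num) k5
  have hF := fath_two (N := N) hb hA hAξ hN hc₀ hδ hδξ (f := f) hO (K := K) (by
    have h3 := k6
    rw [div_le_iff₀ (by positivity)] at h3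
    linarith) (D := 2) le_rfl
  refine W_decay _ hK1 (D := 2) (y := y) hM1 h2 h20 (fun c R β hR => fat1_gas hF hε0
    (zz_two_ne_top hb.le hξ f) h2 c R β hR) (fun c R => ?_) hyR c
  refine tiltT_two hb.le hξ hN le_rfl hεr hy0 hQ (by linarith) (fun β _ => hXi c R β) f
    ?_ k2 k3
  exact le_trans (mul_le_mul_of_nonneg_left (Real.exp_le_exp.2 (by linarith :
    3 + (N : ℝ) ^ 2 * y / (ξ : ℝ) ^ 2 ≤ 4)) (by norm_num)) k1

end steps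

theorem quot_arith {m ξ : ℕ} (hξ : 0 < ξ) :
    (m : ℝ) / ξ - 3 ≤ ((m / ξ - 3 : ℕ) : ℝ) + 1 := by
  have hξ' : (0 : ℝ) < ξ := by exact_mod_cast hξ
  have h4 : m < ξ * (m / ξ + 1) := by
    have h5 := Nat.div_add_mod m ξ
    have h6 := Nat.mod_lt m hξ
    calc m = ξ * (m / ξ) + m % ξ := h5.symm
      _ < ξ * (m / ξ) + ξ := by omega
      _ = _ := by ring
  have h5 : (m : ℝ) < ξ * (((m / ξ : ℕ) : ℝ) + 1) := by exact_mod_cast h4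
  have h6 : ((m / ξ : ℕ) : ℝ) ≤ ((m / ξ - 3 : ℕ) : ℝ) + 3 := by
    have : m / ξ ≤ (m / ξ - 3) + 3 := by omega
    exact_mod_cast this
  have h7 : (m : ℝ) / ξ < ((m / ξ : ℕ) : ℝ) + 1 := by
    rw [div_lt_iff₀ hξ']
    linarith
  linarith

theorem WF_univ {N : ℕ} [NeZero N] {S : Type*} (σ : Sys (TV N) (TE N) S) (B : Finset (TV N))
    {m : ℕ} (hm : N ≤ m) (x0 : TV N) {w : ℝ} : Spec.Ele σ (Spec.WF σ B (ball x0 m)) w := by
  unfold Spec.Ele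
  have h3 : H576.Ex σ (Spec.WF σ B (ball x0 m)) = 0 := by
    have h4 : ∀ x om, Spec.WF σ B (ball x0 m) x om = 0 := by
      intro x om
      unfold Spec.WF
      rw [ball_univ hm]
      refine Finset.sum_eq_zero fun u _ => Finset.sum_eq_zero fun v _ => ?_
      rw [← ind_eq, H352.ind_false, mul_zero]
      rintro ⟨z, hz, _⟩
      exact hz (Finset.mem_univ _)
    unfold H576.Ex
    simp [h4]
  rw [h3]
  exact bot_le

/-- **Theorem B1** from Theorem A -/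
theorem thmB1_of {b1 b2 a : ℝ} (hb1 : 0 < b1) (hTA : Spec.ThmA b1 b2 a) {c₀ δ : ℝ} {A : ℕ}
    (hc₀ : 0 < c₀) (hδ : 0 < δ) (hA : 8 ≤ A) : Spec.ThmB1 b1 b2 a c₀ δ A := by
  obtain ⟨W₀, hW₀⟩ := hTA
  refine ⟨W₀, fun W hW => ?_⟩
  obtain ⟨cA, CA, ysA, XA, hcA, hCA, hysA, hXA, hA1⟩ := hW₀ W hW
  obtain ⟨K, hK1', k1, k2, k3, k4, k5, k6⟩ := exists_K (4 * Real.exp 4) 160
    (20 + 640 * max a 0) (2 * (Nat.factorial (2 * 1) : ℕ) * Real.exp 2)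
    (2 * (Nat.factorial (2 * 10) : ℕ) * Real.exp 2) (2 * (4 * (A : ℝ) + 1) ^ 2 / (c₀ * δ))
  have hK1 : 1 ≤ K := by exact_mod_cast hK1'
  have hM1 : (1 : ℝ) ≤ max 1 CA := le_max_left _ _
  obtain ⟨r, hr⟩ : ∃ r : ℝ, r = rt K 2 (max 1 CA) := ⟨_, rfl⟩
  have hr0 : 0 < r := by rw [hr]; exact rt_pos hK1 2 hM1
  have hKpos : (0 : ℝ) < K := lt_of_lt_of_le one_pos hK1'
  refine ⟨r, 162 * (K * Real.exp (r * (2 * (2 : ℕ))) * Real.exp (3 * r)), min (1 / 2) cA, ysA,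
    max XA (max A (⌈1 / δ⌉₊ + 1)), hr0, by positivity, by positivity, hysA,
    hXA.trans (le_max_left _ _), ?_⟩
  intro N _ b hb ξ y hR hη f hO x0 m
  by_cases hmN : N < m
  · exact WF_univ _ _ hmN.le x0
  push Not at hmN
  have hXξ := hR.hX
  have hAξ : A ≤ ξ := (le_max_left _ _).trans ((le_max_right _ _).trans hXξ)
  have hδN : ⌈1 / δ⌉₊ + 1 ≤ ξ := (le_max_right _ _).trans ((le_max_right _ _).trans hXξ)
  have hξ : 0 < ξ := by omega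
  have hξ' : (0 : ℝ) < ξ := by exact_mod_cast hξ
  have hξ1 : (1 : ℝ) ≤ ξ := by exact_mod_cast hξ
  have hδξ : 1 ≤ δ * (ξ : ℝ) ^ 2 := by
    have h1 : 1 / δ ≤ (ξ : ℝ) := by
      refine (Nat.le_ceil _).trans ?_
      have : ⌈1 / δ⌉₊ ≤ ξ := by omega
      exact_mod_cast this
    rw [div_le_iff₀ hδ] at h1
    calc (1 : ℝ) ≤ ξ * δ := h1
      _ = δ * (ξ * 1) := by ring
      _ ≤ δ * (ξ * ξ) := by gcongr
      _ = _ := by ring
  have hb0 : 0 < b := lt_of_lt_of_le hb1 hR.hb1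
  obtain ⟨n, hn⟩ := hR.hd
  have hN : N = n * ξ := by rw [hn, mul_comm]
  have hn0 : n ≠ 0 := by
    rintro rfl
    exact NeZero.ne N (by rw [hN, zero_mul])
  have : NeZero n := ⟨hn0⟩
  have hn1 : (1 : ℝ) ≤ n := by
    have : 1 ≤ n := Nat.one_le_iff_ne_zero.2 hn0
    exact_mod_cast this
  have hNr : (N : ℝ) = n * ξ := by exact_mod_cast hN
  have hy0 := hR.y0
  -- `n² y ≤ η`
  have hny : (n : ℝ) ^ 2 * y ≤ min (1 / 2) cA := by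
    rw [hNr] at hη
    have h1 : ((n : ℝ) ^ 2 * y) * (ξ : ℝ) ^ 2 ≤ min (1 / 2) cA * (ξ : ℝ) ^ 2 := by
      calc _ = ((n : ℝ) * ξ) ^ 2 * y := by ring
        _ ≤ _ := hη
    exact le_of_mul_le_mul_right h1 (by positivity)
  have hny1 : (n : ℝ) * y ≤ min (1 / 2) cA := by
    refine le_trans (mul_le_mul_of_nonneg_right ?_ hy0) hny
    calc (n : ℝ) = n * 1 := (mul_one _).symm
      _ ≤ n * n := by gcongr
      _ = (n : ℝ) ^ 2 := by ring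
  have hkap : (N : ℝ) ^ 2 * y / (ξ : ℝ) ^ 2 ≤ 1 := by
    rw [div_le_one (by positivity)]
    refine hη.trans ?_
    have : min (1 / 2) cA ≤ 1 := (min_le_left _ _).trans (by norm_num)
    calc min (1 / 2) cA * (ξ : ℝ) ^ 2 ≤ 1 * (ξ : ℝ) ^ 2 := by gcongr
      _ = _ := one_mul _
  have hεl : (((((ξ : ℝ≥0) ^ 2)⁻¹ : ℝ≥0)) : ℝ) * (ξ : ℝ) ^ 2 = 1 := by
    push_cast
    exact inv_mul_cancel₀ (by positivity)
  have hRA : Spec.Rng b1 b2 a W ysA XA N b ξ y :=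
    ⟨hR.hb1, hR.hb2, (le_max_left _ _).trans hXξ,
      (Nat.mul_le_mul_right ξ (le_max_left _ _)).trans hR.hK, hR.hd, hy0, hR.y1, hR.hyp⟩
  have hNy : (N : ℝ) * y ≤ cA * ξ := by
    calc (N : ℝ) * y = ((n : ℝ) * y) * ξ := by rw [hNr]; ring
      _ ≤ cA * ξ := mul_le_mul_of_nonneg_right (hny1.trans (min_le_right _ _)) hξ'.le
  have hXi := Xi_one (n := n) hb hξ hN hεl (fun z0 => (hA1 N b hb ξ y hRA z0 N hNy).2)
  have hmξ : m / ξ ≤ n := by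
    have h3 : m / ξ ≤ N / ξ := Nat.div_le_div_right hmN
    rwa [hN, Nat.mul_div_cancel _ hξ] at h3
  have hyR : y * (((m / ξ - 3 : ℕ) : ℝ) + 1) ≤ 1 := by
    have h3 : ((m / ξ - 3 : ℕ) : ℝ) ≤ n := by
      have : m / ξ - 3 ≤ n := by omega
      exact_mod_cast this
    have h4 : (n : ℝ) * y ≤ 1 / 2 := hny1.trans (min_le_left _ _)
    calc y * (((m / ξ - 3 : ℕ) : ℝ) + 1) ≤ y * ((n : ℝ) + n) := by gcongr
      _ = (n : ℝ) * y + (n : ℝ) * y := by ring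
      _ ≤ 1 := by linarith
  have hw0 : 0 ≤ K * Real.exp (r * (2 * (2 : ℕ))) * (Real.exp (3 * r) *
    Real.exp (-(r * m / ξ))) := by positivity
  have hW' : ∀ c, (H352.gas (Spec.σ2 N b ξ hb f) rfl rfl (((ξ : ℝ≥0) ^ 2)⁻¹) hξ hN).W c
      (m / ξ - 3) ≤ ENNReal.ofReal (K * Real.exp (r * (2 * (2 : ℕ))) * (Real.exp (3 * r) *
    Real.exp (-(r * m / ξ)))) := by
    intro c
    refine (W_two hb0 hξ hA hAξ hN hc₀ hδ hδξ hy0 hR.hyp.qu hkap hO hK1 k1 k2 k3 k4 k5 k6 hM1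
      hXi hyR c).trans (ENNReal.ofReal_le_ofReal ?_)
    rw [← hr]
    refine mul_le_mul_of_nonneg_left ?_ (by positivity)
    rw [← Real.exp_add]
    apply Real.exp_le_exp.2
    have h8 := mul_le_mul_of_nonneg_left (quot_arith (m := m) hξ) hr0.le
    have h9 : r * m / ξ = r * (m / ξ) := by ring
    rw [h9]
    linarith
  have h3 := WF_of_W (σ := Spec.σ2 N b ξ hb f) (hs := rfl) (ht := rfl) (hl := hξ) (hN := hN)
    hεl (zz_two_ne_zero hb hξ f) (zz_two_ne_top hb hξ f) x0 m hw0 hW'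
  have e1 : 162 * (K * Real.exp (r * (2 * (2 : ℕ))) * Real.exp (3 * r)) * (ξ : ℝ) ^ 4 *
      Real.exp (-(r * m / ξ)) = 162 * (ξ : ℝ) ^ 4 * (K * Real.exp (r * (2 * (2 : ℕ))) *
        (Real.exp (3 * r) * Real.exp (-(r * m / ξ)))) := by
    ring
  rw [e1]
  exact h3

end Vale.Agent.P159.TM.H634
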