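import Vale.Agent.P159.TM.H634.Gas

/-!
# P159, row TILT (2): the tilt inequality of the gas of clusters

`tilt_abs`: `Gas.Tilt` of `TM/H352/Decay.lean` for the gas of an FK system, from the tilt inequality
`Sys.e6_block`; hypotheses: exponential moments (E1), the rest of a cluster (E2 with E3) and the
inequality for the mass form of the ball (LAMB).
-/

open Finset
open scoped ENNReal

set_option linter.unusedSectionVars false
set_option linter.unusedDecidableInType false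

namespace Vale.Agent.P159.TM.H634

open H60 H352

section count

variable {V E S 𝔹 : Type*} [Fintype V] [DecidableEq V] [Fintype E] [DecidableEq E]
  [Fintype 𝔹] [DecidableEq 𝔹]

open Classical in
/-- the blocks of the ball which are touched by `A` or lie on the sphere -/
noncomputable def NB (G : Geo 𝔹) (bk : V → 𝔹) (a : 𝔹) (R : ℕ) (A : Finset V) : Finset 𝔹 :=
  (G.ball a R).filter fun β => (∃ v ∈ A, G.d (bk v) β ≤ 1) ∨ G.d a β = R

theorem card_NB_le (G : Geo 𝔹) (bk : V → 𝔹) (a : 𝔹) (R : ℕ) (A : Finset V) :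
    (NB G bk a R A).card ≤ 9 * (A.image bk ∩ G.ball a R).card + 160 * (R + 1) := by
  classical
  have h1 : NB G bk a R A ⊆ ((A.image bk ∩ G.ball a (R + 1)).biUnion fun c => G.ball c 1) ∪
      (univ.filter fun b => G.d a b = R) := by
    intro β hβ
    unfold NB at hβ
    rw [Finset.mem_filter, G.mem_ball] at hβ
    rw [Finset.mem_union]
    rcases hβ.2 with ⟨v, hv, h⟩ | h
    · left
      rw [Finset.mem_biUnion]
      refine ⟨bk v, ?_, ?_⟩
      · rw [Finset.mem_inter, G.mem_ball]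
        refine ⟨Finset.mem_image_of_mem _ hv, ?_⟩
        have := G.d_tri a β (bk v)
        have := G.d_comm β (bk v)
        omega
      · rw [G.mem_ball]; exact h
    · right
      rw [Finset.mem_filter]
      exact ⟨Finset.mem_univ _, h⟩
  have h2 : A.image bk ∩ G.ball a (R + 1) ⊆ (A.image bk ∩ G.ball a R) ∪
      (univ.filter fun b => G.d a b = R + 1) := by
    intro b hb
    rw [Finset.mem_inter, G.mem_ball] at hb
    rw [Finset.mem_union, Finset.mem_inter, G.mem_ball, Finset.mem_filter]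
    by_cases h : G.d a b ≤ R
    · exact Or.inl ⟨hb.1, h⟩
    · right
      refine ⟨Finset.mem_univ _, ?_⟩
      omega
  have c2 := (Finset.card_le_card h2).trans (Finset.card_union_le _ _)
  have c3 := G.sph_card a (R + 1)
  have c4 := G.sph_card a R
  have c5 : ((A.image bk ∩ G.ball a (R + 1)).biUnion fun c => G.ball c 1).card ≤
      (A.image bk ∩ G.ball a (R + 1)).card * 9 := by
    refine Finset.card_biUnion_le_card_mul _ _ _ fun c _ => ?_
    exact G.ball_card c 1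
  have c1 := (Finset.card_le_card h1).trans (Finset.card_union_le _ _)
  omega

end count

section real

variable {V E S 𝔹 : Type*} [Fintype V] [DecidableEq V] [Fintype E] [DecidableEq E]
  [Fintype 𝔹] [DecidableEq 𝔹]
variable {σ : Sys V E S} {G : Geo 𝔹} {bk : V → 𝔹} {ε : ℝ}
  {hadj : ∀ e, G.d (bk (σ.s e)) (bk (σ.t e)) ≤ 1}

/-- size biased sums of the gas as real sums -/
theorem gas_real (hε : 0 < ε) (hZ : 0 < ∑' x, σ.tot x) (a : 𝔹) (R : ℕ)
    (F : Finset E × (V → S) × Finset V → ℝ≥0∞) (f : Finset E × (V → S) × V → ℝ)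
    (hf : ∀ i, 0 ≤ f i) (hF : ∀ i : Finset E × (V → S) × V,
      F (i.1, i.2.1, clus σ.s σ.t i.1 i.2.2) = ENNReal.ofReal (f i))
    (hs : Summable fun i => σ.e6q (bet bk a) (Phi G bk a R) i * f i) :
    H352.S (gas σ G bk ε hadj).p (fun i => (gas σ G bk ε hadj).wJ a R i * F i) =
      ENNReal.ofReal ((ε ^ 2 / ∑' x, σ.tot x) *
        ∑' i, σ.e6q (bet bk a) (Phi G bk a R) i * f i) := by
  classical
  have h1 := tsum_e6q (hadj := hadj) hε hZ a R (fun om x C => F (om, x, C))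
  have hq := σ.e6q_nonneg (bet_nonneg bk a) (Phi G bk a R)
  have h2 : ∑' i : Finset E × (V → S) × V, ENNReal.ofReal (σ.e6q (bet bk a) (Phi G bk a R) i) *
      F (i.1, i.2.1, clus σ.s σ.t i.1 i.2.2) =
      ENNReal.ofReal (∑' i, σ.e6q (bet bk a) (Phi G bk a R) i * f i) := by
    rw [ENNReal.ofReal_tsum_of_nonneg (fun i => mul_nonneg (hq i) (hf i)) hs]
    refine tsum_congr fun i => ?_
    rw [hF, ← ENNReal.ofReal_mul (hq i)]
  rw [h2] at h1
  have hc : 0 < (∑' x, σ.tot x) / ε ^ 2 := by positivity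
  rw [ENNReal.ofReal_mul (by positivity), h1, ← mul_assoc, ← ENNReal.ofReal_mul (by positivity)]
  have h3 : ε ^ 2 / (∑' x, σ.tot x) * ((∑' x, σ.tot x) / ε ^ 2) = 1 := by
    have := hZ.ne'
    field_simp
  rw [h3, ENNReal.ofReal_one, one_mul]

/-- indicator of the ball of blocks -/
noncomputable def lam (G : Geo 𝔹) (bk : V → 𝔹) (a : 𝔹) (R : ℕ) (v : V) : ℝ :=
  if G.d a (bk v) ≤ R then 1 else 0

theorem lam_nonneg (G : Geo 𝔹) (bk : V → 𝔹) (a : 𝔹) (R : ℕ) (v : V) : 0 ≤ lam G bk a R v := by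
  unfold lam; split_ifs <;> norm_num

/-- number of the points of the ball -/
noncomputable def nL (G : Geo 𝔹) (bk : V → 𝔹) (a : 𝔹) (R : ℕ) : ℝ :=
  ∑ v, lam G bk a R v

/-- the mass of the ball -/
theorem XB_eq (hε : 0 ≤ ε) (a : 𝔹) (R : ℕ) (om : Finset E) (x : V → S) (u : V) :
    (gas σ G bk ε hadj).XB a R (om, x, clus σ.s σ.t om u) =
      ENNReal.ofReal (σ.pa (fun v => ε * lam G bk a R v) (clus σ.s σ.t om u) x) := by
  classical
  set C := clus σ.s σ.t om u with hC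
  have hCC : cC σ.s σ.t om C = C := cC_of (isC_clus om u)
  unfold Gas.XB
  have h1 : ∀ b, (gas σ G bk ε hadj).X (om, x, C) b =
      ENNReal.ofReal (ε * ∑ z ∈ C.filter (fun z => bk z = b), |σ.D x z|) := by
    intro b
    show ENNReal.ofReal (ε * ∑ z ∈ (cC σ.s σ.t om C).filter (fun z => bk z = b), |σ.D x z|) = _
    rw [hCC]
  rw [Finset.sum_congr rfl fun b _ => h1 b, ← ENNReal.ofReal_sum_of_nonneg fun b _ =>
    mul_nonneg hε (Finset.sum_nonneg fun z _ => abs_nonneg _)]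
  congr 1
  unfold Sys.pa
  rw [← Finset.mul_sum]
  have h2 : ∑ b ∈ G.ball a R, ∑ z ∈ C.filter (fun z => bk z = b), |σ.D x z| =
      ∑ z ∈ C.filter (fun z => bk z ∈ G.ball a R), |σ.D x z| := by
    rw [← Finset.sum_fiberwise_of_maps_to (s := C.filter (fun z => bk z ∈ G.ball a R))
      (t := G.ball a R) (g := bk) (fun z hz => (Finset.mem_filter.1 hz).2)]
    refine Finset.sum_congr rfl fun b hb => ?_
    refine Finset.sum_congr ?_ fun _ _ => rfl
    ext z
    simp only [Finset.mem_filter]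
    constructor
    · rintro ⟨h1, h2⟩
      exact ⟨⟨h1, h2 ▸ hb⟩, h2⟩
    · rintro ⟨⟨h1, _⟩, h2⟩
      exact ⟨h1, h2⟩
  rw [h2, Finset.sum_filter, Finset.mul_sum]
  refine Finset.sum_congr rfl fun z _ => ?_
  unfold lam
  simp only [G.mem_ball]
  split_ifs <;> simp

/-- the number of visited blocks of the ball -/
noncomputable def nvr (σ : Sys V E S) (G : Geo 𝔹) (bk : V → 𝔹) (a : 𝔹) (R : ℕ)
    (i : Finset E × (V → S) × V) : ℝ :=
  (((clus σ.s σ.t i.1 i.2.2).image bk ∩ G.ball a R).card : ℝ)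

theorem nv_eq (a : 𝔹) (R : ℕ) (om : Finset E) (x : V → S) (u : V) :
    (gas σ G bk ε hadj).nv a R (om, x, clus σ.s σ.t om u) =
      ENNReal.ofReal (nvr σ G bk a R (om, x, u)) := by
  classical
  have hCC : cC σ.s σ.t om (clus σ.s σ.t om u) = clus σ.s σ.t om u := cC_of (isC_clus om u)
  unfold Gas.nv nvr
  show ((((cC σ.s σ.t om (clus σ.s σ.t om u)).image bk ∩ G.ball a R).card : ℕ) : ℝ≥0∞) = _
  rw [hCC, ENNReal.ofReal_natCast]

/-- the squared norm of the tilts -/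
theorem sq_tilt_le (hε : 0 < ε) {a : 𝔹} {R : ℕ}
    (hblk : ε * ((univ.filter fun v => bk v = a).card : ℝ) ≤ 1) {θ s : ℝ} (hθ : 0 ≤ θ)
    (hθ1 : θ ≤ 1) (hs : s = ε ∨ s = -ε) :
    (∑ v, (θ * (ε * lam G bk a R v) + s * bet bk a v) ^ 2) / ε ≤
      θ ^ 2 * (ε * nL G bk a R) + 3 := by
  have h1 : ∀ v, (θ * (ε * lam G bk a R v) + s * bet bk a v) ^ 2 ≤
      ε ^ 2 * (θ ^ 2 * lam G bk a R v) + ε ^ 2 * (3 * bet bk a v) := by
    intro v
    have hb : bet bk a v = 0 ∨ bet bk a v = 1 := by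
      unfold bet; split_ifs <;> simp
    have hl : lam G bk a R v = 0 ∨ lam G bk a R v = 1 := by
      unfold lam; split_ifs <;> simp
    have hs2 : s ^ 2 = ε ^ 2 := by rcases hs with h | h <;> rw [h]; ring
    have hsa : |s| = ε := by
      rcases hs with h | h
      · rw [h, abs_of_pos hε]
      · rw [h, abs_neg, abs_of_pos hε]
    have h4 : s ≤ ε := by rw [← hsa]; exact le_abs_self s
    have hε2 : 0 ≤ ε ^ 2 := by positivity
    have hθε : 0 ≤ θ * ε := by positivity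
    rcases hb with hb | hb <;> rcases hl with hl | hl <;> rw [hb, hl]
    · simp
    · nlinarith
    · nlinarith
    · have h5 : (θ * (ε * 1) + s * 1) ^ 2 = θ ^ 2 * ε ^ 2 + 2 * (θ * ε) * s + s ^ 2 := by ring
      rw [h5, hs2]
      have h6 : 2 * (θ * ε) * s ≤ 2 * (θ * ε) * ε := by nlinarith
      have h7 : 2 * (θ * ε) * ε ≤ 2 * ε ^ 2 := by nlinarith
      nlinarith
  have h2 := Finset.sum_le_sum fun v (_ : v ∈ univ) => h1 v
  rw [Finset.sum_add_distrib, ← Finset.mul_sum, ← Finset.mul_sum, ← Finset.mul_sum,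
    ← Finset.mul_sum] at h2
  have h3 : ∑ v, bet bk a v = ((univ.filter fun v => bk v = a).card : ℝ) := by
    unfold bet
    rw [Finset.sum_ite, Finset.sum_const_zero, add_zero, Finset.sum_const, nsmul_eq_mul, mul_one]
  rw [h3] at h2
  rw [div_le_iff₀ hε]
  refine h2.trans ?_
  unfold nL
  have h4 := mul_le_mul_of_nonneg_left hblk (by positivity : 0 ≤ 3 * ε)
  nlinarith [h4]

/-- the final arithmetic -/
theorem fin_arith {κ k0 θ M K y w x ν r Sg n : ℝ} (hκ : 0 ≤ κ) (hθ : 0 ≤ θ) (hM : 0 ≤ M)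
    (hw : 0 < w) (hν : 0 ≤ ν) (hr : 0 ≤ r) (hLam : κ * (n - Sg) ≤ K * (y * r ^ 2 + r))
    (hK1 : 4 * Real.exp (3 * κ + k0) ≤ K) (hK2 : 160 * κ ≤ K)
    (h : θ * x + κ * θ ^ 2 * (Sg - M * (9 * ν + 160 * r)) ≤
      Real.log (4 * Real.exp (3 * κ + k0) / w) + κ * θ ^ 2 * n) :
    θ * x ≤ Real.log (K / w) + K * θ ^ 2 * (y * r ^ 2 + r + (ν + r) * M) := by
  have h14 : Real.log (4 * Real.exp (3 * κ + k0) / w) ≤ Real.log (K / w) := by
    refine Real.log_le_log (by positivity) ?_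
    exact div_le_div_of_nonneg_right hK1 hw.le
  have h16 : κ * (9 * ν + 160 * r) ≤ K * (ν + r) := by
    have h17 : 9 * κ * ν ≤ K * ν := mul_le_mul_of_nonneg_right (by linarith) hν
    have h18 : 160 * κ * r ≤ K * r := mul_le_mul_of_nonneg_right hK2 hr
    linarith
  have h15 : κ * (9 * ν + 160 * r) * M ≤ K * (ν + r) * M := mul_le_mul_of_nonneg_right h16 hM
  have hθ2 : 0 ≤ θ ^ 2 := by positivity
  have h19 := mul_le_mul_of_nonneg_left h15 hθ2
  have h20 := mul_le_mul_of_nonneg_left hLam hθ2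
  have e1 : κ * θ ^ 2 * (Sg - M * (9 * ν + 160 * r)) =
      κ * θ ^ 2 * n - θ ^ 2 * (κ * (n - Sg)) - θ ^ 2 * (κ * (9 * ν + 160 * r) * M) := by ring
  have e2 : K * θ ^ 2 * (y * r ^ 2 + r + (ν + r) * M) =
      θ ^ 2 * (K * (y * r ^ 2 + r)) + θ ^ 2 * (K * (ν + r) * M) := by ring
  rw [e1] at h
  rw [e2]
  linarith

/-- **the tilt inequality of the gas** -/
theorem tilt_abs (hε : 0 < ε) (hZ : 0 < ∑' x, σ.tot x) (hE : σ.ExpS) {κ k0 : ℝ} (hκ : 0 ≤ κ)
    (hmgf : ∀ g : V → ℝ, ∑' x, ENNReal.ofReal (σ.tot x * Real.exp (σ.pr g univ x)) ≤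
      ENNReal.ofReal (Real.exp (κ * ((∑ v, g v ^ 2) / ε) + k0) * ∑' x, σ.tot x))
    {a : 𝔹} {R : ℕ} (hblk : ε * ((univ.filter fun v => bk v = a).card : ℝ) ≤ 1)
    {M Sg : ℝ} (hM : 0 ≤ M)
    (hRB : ∀ θ : ℝ, 0 < θ → θ ≤ 1 → ∀ (A : Finset V) (x : V → S), (∀ v ∈ A, σ.d (x v) ≠ 0) →
      σ.restZ A x (fun _ => ENNReal.ofReal
        (Real.exp (κ * θ ^ 2 * (Sg - M * ((NB G bk a R A).card : ℝ))))) ≤
      σ.restZ A x (fun z => ENNReal.ofReal
        (Real.exp (σ.pr (fun v => θ * (ε * lam G bk a R v)) Aᶜ z))))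
    {K y : ℝ} (hLam : κ * (ε * nL G bk a R - Sg) ≤ K * (y * ((R : ℝ) + 1) ^ 2 + ((R : ℝ) + 1)))
    (hK1 : 4 * Real.exp (3 * κ + k0) ≤ K) (hK2 : 160 * κ ≤ K) :
    (gas σ G bk ε hadj).Tilt K y a R M := by
  classical
  intro θ hθ hθ1 hW0
  set q := σ.e6q (bet bk a) (Phi G bk a R) with hqdef
  set c : Finset V → ℝ := fun A => κ * θ ^ 2 * (Sg - M * ((NB G bk a R A).card : ℝ)) with hc
  set τ : V → ℝ := fun v => θ * (ε * lam G bk a R v) with hτdef
  have hβ := bet_nonneg bk a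
  have hτ : ∀ v, 0 ≤ τ v := fun v => mul_nonneg hθ.le (mul_nonneg hε.le (lam_nonneg _ _ _ _ _))
  have hq0 : ∀ i, 0 ≤ q i := σ.e6q_nonneg hβ _
  set Z := ∑' x, σ.tot x with hZdef
  set K' : ℝ := Real.exp (κ * (θ ^ 2 * (ε * nL G bk a R) + 3) + k0) * Z with hK'
  have hK'0 : 0 ≤ K' := by positivity
  have hb1 : ∀ s : ℝ, (s = ε ∨ s = -ε) → ∑' x, ENNReal.ofReal (σ.tot x *
      Real.exp (σ.pr (fun v => τ v + s * bet bk a v) univ x)) ≤ ENNReal.ofReal K' := by
    intro s hs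
    refine (hmgf _).trans (ENNReal.ofReal_le_ofReal ?_)
    refine mul_le_mul_of_nonneg_right (Real.exp_le_exp.2 ?_) hZ.le
    have := mul_le_mul_of_nonneg_left (sq_tilt_le (G := G) (bk := bk) (R := R) hε hblk hθ.le hθ1 hs) hκ
    linarith
  have h6 := σ.e6_block hβ hτ (Phi G bk a R) c hE
    (fun A x _ hA => hRB θ hθ hθ1 A x hA) hε hK'0 (hb1 ε (Or.inl rfl)) (hb1 (-ε) (Or.inr rfl))
  obtain ⟨hsq, hsL, hm, -⟩ := h6
  -- the real sums
  set XBr : Finset E × (V → S) × V → ℝ :=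
    fun i => σ.pa (fun v => ε * lam G bk a R v) (clus σ.s σ.t i.1 i.2.2) i.2.1 with hXBr
  have hXB0 : ∀ i, 0 ≤ XBr i := fun i =>
    σ.pa_nonneg (fun v => mul_nonneg hε.le (lam_nonneg _ _ _ _ _)) _ _
  have hL : ∀ i, σ.e6L τ c i = θ * XBr i + c (clus σ.s σ.t i.1 i.2.2) := by
    intro i
    unfold Sys.e6L
    congr 1
    simp only [hXBr, hτdef, Sys.pa]
    rw [Finset.mul_sum]
    exact Finset.sum_congr rfl fun v _ => by ring
  have hsc : Summable fun i => q i * c (clus σ.s σ.t i.1 i.2.2) := by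
    refine Summable.of_abs ?_
    refine Summable.of_nonneg_of_le (fun i => abs_nonneg _) (fun i => ?_)
      (hsq.mul_right (∑ A : Finset V, |c A|))
    rw [abs_mul, abs_of_nonneg (hq0 i)]
    refine mul_le_mul_of_nonneg_left ?_ (hq0 i)
    exact Finset.single_le_sum (f := fun A => |c A|) (fun A _ => abs_nonneg _) (Finset.mem_univ _)
  have hsX : Summable fun i => q i * XBr i := by
    have h1 : Summable fun i => θ⁻¹ * (q i * σ.e6L τ c i - q i * c (clus σ.s σ.t i.1 i.2.2)) :=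
      (hsL.sub hsc).mul_left _
    refine h1.congr fun i => ?_
    rw [hL i]
    have := hθ.ne'
    field_simp
    ring
  have hsN : Summable fun i => q i * nvr σ G bk a R i := by
    refine Summable.of_nonneg_of_le (fun i => mul_nonneg (hq0 i) (Nat.cast_nonneg _))
      (fun i => ?_) (hsq.mul_right (Fintype.card 𝔹 : ℝ))
    refine mul_le_mul_of_nonneg_left ?_ (hq0 i)
    unfold nvr
    exact_mod_cast Finset.card_le_univ _
  set W6 := ∑' i, q i with hW6
  set X6 := ∑' i, q i * XBr i with hX6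
  set N6 := ∑' i, q i * nvr σ G bk a R i with hN6
  -- dictionary
  have hcZ : 0 < ε ^ 2 / Z := by positivity
  have eW : (gas σ G bk ε hadj).W a R = ENNReal.ofReal (ε ^ 2 / Z * W6) := by
    have h1 := gas_real (hadj := hadj) hε hZ a R (fun _ => 1) (fun _ => 1) (fun _ => zero_le_one)
      (fun i => by simp) (by simpa using hsq)
    have h2 : (gas σ G bk ε hadj).W a R = H352.S (gas σ G bk ε hadj).p
        (fun i => (gas σ G bk ε hadj).wJ a R i * 1) := by
      unfold Gas.W Gas.wJ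
      simp only [mul_one]
    rw [h2, h1]
    simp only [mul_one]
    rfl
  have eX : (gas σ G bk ε hadj).EX a R = ENNReal.ofReal (ε ^ 2 / Z * X6) := by
    have h1 := gas_real (hadj := hadj) hε hZ a R (fun i => (gas σ G bk ε hadj).XB a R i) XBr hXB0
      (fun i => XB_eq hε.le a R i.1 i.2.1 i.2.2) hsX
    unfold Gas.EX
    rw [h1]
  have eN : (gas σ G bk ε hadj).EN a R = ENNReal.ofReal (ε ^ 2 / Z * N6) := by
    have h1 := gas_real (hadj := hadj) hε hZ a R (fun i => (gas σ G bk ε hadj).nv a R i)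
      (nvr σ G bk a R) (fun i => Nat.cast_nonneg _)
      (fun i => nv_eq a R i.1 i.2.1 i.2.2) hsN
    unfold Gas.EN
    rw [h1]
  have hW60 : 0 ≤ W6 := tsum_nonneg hq0
  have hX60 : 0 ≤ X6 := tsum_nonneg fun i => mul_nonneg (hq0 i) (hXB0 i)
  have hN60 : 0 ≤ N6 := tsum_nonneg fun i => mul_nonneg (hq0 i) (Nat.cast_nonneg _)
  have rW : ((gas σ G bk ε hadj).W a R).toReal = ε ^ 2 / Z * W6 := by
    rw [eW, ENNReal.toReal_ofReal (by positivity)]
  have rX : ((gas σ G bk ε hadj).EX a R).toReal = ε ^ 2 / Z * X6 := by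
    rw [eX, ENNReal.toReal_ofReal (by positivity)]
  have rN : ((gas σ G bk ε hadj).EN a R).toReal = ε ^ 2 / Z * N6 := by
    rw [eN, ENNReal.toReal_ofReal (by positivity)]
  have hW6pos : 0 < W6 := by
    rcases hW60.lt_or_eq with h | h
    · exact h
    · exfalso
      apply hW0
      rw [eW, ← h]
      simp
  rw [rW, rX, rN]
  have dX : ε ^ 2 / Z * X6 / (ε ^ 2 / Z * W6) = X6 / W6 := by
    rw [mul_div_mul_left _ _ hcZ.ne']
  have dN : ε ^ 2 / Z * N6 / (ε ^ 2 / Z * W6) = N6 / W6 := by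
    rw [mul_div_mul_left _ _ hcZ.ne']
  rw [dX, dN]
  -- the mean of the exponent
  set m : ℝ := θ * (X6 / W6) + κ * θ ^ 2 * (Sg - M * (9 * (N6 / W6) + 160 * ((R : ℝ) + 1)))
    with hmdef
  have hmean : m * W6 ≤ ∑' i, q i * σ.e6L τ c i := by
    have h1 : ∀ i, θ * (q i * XBr i) + (κ * θ ^ 2 * (Sg - M * (160 * ((R : ℝ) + 1)))) * q i -
        (κ * θ ^ 2 * M * 9) * (q i * nvr σ G bk a R i) ≤ q i * σ.e6L τ c i := by
      intro i
      rw [hL i]
      have h2 : ((NB G bk a R (clus σ.s σ.t i.1 i.2.2)).card : ℝ) ≤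
          9 * nvr σ G bk a R i + 160 * ((R : ℝ) + 1) := by
        have := card_NB_le G bk a R (clus σ.s σ.t i.1 i.2.2)
        unfold nvr
        exact_mod_cast this
      have h3 : Sg - M * (9 * nvr σ G bk a R i + 160 * ((R : ℝ) + 1)) ≤
          Sg - M * ((NB G bk a R (clus σ.s σ.t i.1 i.2.2)).card : ℝ) := by
        have := mul_le_mul_of_nonneg_left h2 hM
        linarith
      have h4 : κ * θ ^ 2 * (Sg - M * (9 * nvr σ G bk a R i + 160 * ((R : ℝ) + 1))) ≤
          c (clus σ.s σ.t i.1 i.2.2) := mul_le_mul_of_nonneg_left h3 (by positivity)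
      have h5 := mul_le_mul_of_nonneg_left h4 (hq0 i)
      calc θ * (q i * XBr i) + (κ * θ ^ 2 * (Sg - M * (160 * ((R : ℝ) + 1)))) * q i -
          (κ * θ ^ 2 * M * 9) * (q i * nvr σ G bk a R i)
          = θ * (q i * XBr i) + q i * (κ * θ ^ 2 * (Sg - M * (9 * nvr σ G bk a R i +
            160 * ((R : ℝ) + 1)))) := by ring
        _ ≤ θ * (q i * XBr i) + q i * c (clus σ.s σ.t i.1 i.2.2) := by linarith
        _ = q i * (θ * XBr i + c (clus σ.s σ.t i.1 i.2.2)) := by ring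
    have h2 := Summable.tsum_le_tsum h1 (((hsX.mul_left θ).add (hsq.mul_left _)).sub
      (hsN.mul_left _)) hsL
    rw [Summable.tsum_sub ((hsX.mul_left θ).add (hsq.mul_left _)) (hsN.mul_left _),
      Summable.tsum_add (hsX.mul_left θ) (hsq.mul_left _), tsum_mul_left, tsum_mul_left,
      tsum_mul_left] at h2
    refine le_trans (le_of_eq ?_) h2
    rw [hmdef]
    have := hW6pos.ne'
    field_simp
    ring
  have h7 := hm m hmean
  have hε2 : 0 < ε ^ 2 := by positivity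
  -- w exp m ≤ 4 exp (..)
  have h8 : (ε ^ 2 / Z * W6) * Real.exp m ≤
      4 * Real.exp (κ * (θ ^ 2 * (ε * nL G bk a R) + 3) + k0) := by
    have h9 : (ε ^ 2 / Z * W6) * Real.exp m = ε ^ 2 / Z * (W6 * Real.exp m) := by ring
    rw [h9]
    refine (mul_le_mul_of_nonneg_left h7 hcZ.le).trans (le_of_eq ?_)
    rw [hK']
    have := hZ.ne'
    field_simp
  set w := ε ^ 2 / Z * W6 with hw
  have hwpos : 0 < w := by positivity
  have h10 : m ≤ Real.log (4 * Real.exp (3 * κ + k0) / w) + κ * θ ^ 2 * (ε * nL G bk a R) := by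
    have h11 : Real.exp m ≤ 4 * Real.exp (3 * κ + k0) / w *
        Real.exp (κ * θ ^ 2 * (ε * nL G bk a R)) := by
      rw [div_mul_eq_mul_div, le_div_iff₀ hwpos, mul_comm]
      refine h8.trans (le_of_eq ?_)
      rw [mul_assoc, ← Real.exp_add]
      congr 2
      ring
    have h12 : 0 < 4 * Real.exp (3 * κ + k0) / w := by positivity
    have h13 := Real.log_le_log (Real.exp_pos _) h11
    rw [Real.log_exp, Real.log_mul h12.ne' (Real.exp_pos _).ne', Real.log_exp] at h13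
    exact h13
  have hNW : 0 ≤ N6 / W6 := by positivity
  have hR1 : (0 : ℝ) ≤ (R : ℝ) + 1 := by positivity
  exact fin_arith hκ hθ.le hM hwpos hNW hR1 hLam hK1 hK2 h10

end real

end Vale.Agent.P159.TM.H634
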